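import Vale.Agent.P154.Neg.Poisson

/-!
# P154: a potential that decreases along the tree gives nonreconstruction

A potential is the maximum of two channel functionals. If attaching a child raises it by at most
`λ² (potential of the child - ε X²)`, then it decreases in the mean when `d λ² ≤ 1`, and the second
moment tends to zero.
-/

namespace Vale.Agent.P154.Neg

open Finset Filter Topology ENNReal

/-- The value of a pair of channel functionals. -/
noncomputable def potZ (f : Fin 2 → (Fin 3 → ℝ) → ℝ) {A : Type} [Fintype A]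
    (L : A → Fin 3 → ℝ) : ℝ :=
  max (∑ o, f 0 (L o)) (∑ o, f 1 (L o))

/-- Properties of a pair of functionals that force nonreconstruction up to `d λ² = 1`. -/
structure PotCert (l : ℝ) (f : Fin 2 → (Fin 3 → ℝ) → ℝ) : Prop where
  lower : ∃ c > 0, ∀ {A : Type} [Fintype A] (L : A → Fin 3 → ℝ), Good L → c * chX L ≤ potZ f L
  upper : ∃ C : ℝ, ∀ {A : Type} [Fintype A] (L : A → Fin 3 → ℝ), Good L → potZ f L ≤ C
  unit : potZ f (A := PUnit) (fun _ _ => (1 : ℝ)) ≤ 0
  step : ∃ ε > 0, ∀ {A B : Type} [Fintype A] [Fintype B] (M : A → Fin 3 → ℝ) (L : B → Fin 3 → ℝ),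
    Good M → Good L →
      potZ f (prodL (fun o => edge l (M o)) L) ≤ potZ f L + l ^ 2 * (potZ f M - ε * chX M ^ 2)

/-- The potential at the root of a tree. -/
noncomputable def tZ (l : ℝ) (f : Fin 2 → (Fin 3 → ℝ) → ℝ) (t : Tree) (n : ℕ) : ℝ :=
  potZ f (lik l t n)

variable {l : ℝ} {f : Fin 2 → (Fin 3 → ℝ) → ℝ}

/-- A root is worth at most the discounted sum over its children. -/
lemma tZ_succ_le (h0 : -1 / 2 ≤ l) (h1 : l ≤ 1) {ε : ℝ}
    (hu : potZ f (A := PUnit) (fun _ _ => (1 : ℝ)) ≤ 0)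
    (hstep : ∀ {A B : Type} [Fintype A] [Fintype B] (M : A → Fin 3 → ℝ) (L : B → Fin 3 → ℝ),
      Good M → Good L →
        potZ f (prodL (fun o => edge l (M o)) L) ≤ potZ f L + l ^ 2 * (potZ f M - ε * chX M ^ 2))
    (n : ℕ) : ∀ t : Tree, tZ l f t (n + 1) + kidsSum (fun c => l ^ 2 * ε * tX l c n ^ 2) t
      ≤ kidsSum (fun c => l ^ 2 * tZ l f c n) t
  | .nil => by
    simp only [kidsSum, add_zero]
    exact hu
  | .cons c r => by
    have h := hstep (lik l c n) (lik l r (n + 1)) (good_lik h0 h1 c n) (good_lik h0 h1 r (n + 1))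
    rw [← lik_cons] at h
    have h' : tZ l f (.cons c r) (n + 1)
        ≤ tZ l f r (n + 1) + l ^ 2 * (tZ l f c n - ε * tX l c n ^ 2) := h
    have ih := tZ_succ_le h0 h1 hu hstep n r
    simp only [kidsSum]
    linarith

/-- A nonnegative sequence losing `q ε xₙ²` at each step forces `xₙ → 0`. -/
lemma pot_seq {z x : ℕ → ℝ} {c q ε : ℝ} (hc : 0 < c) (hε : 0 < ε) (hq0 : 0 ≤ q) (hq : q ≤ 1)
    (hx : ∀ n, 0 ≤ x n) (hlow : ∀ n, c * x n ≤ z n)
    (hstep : ∀ n, z (n + 1) + q * ε * x n ^ 2 ≤ q * z n) : Tendsto x atTop (𝓝 0) := by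
  have hz : ∀ n, 0 ≤ z n := fun n => (mul_nonneg hc.le (hx n)).trans (hlow n)
  rcases hq0.eq_or_lt with h | hpos
  · have hzero : ∀ n, x (n + 1) = 0 := fun n => by
      have h1 := hstep n
      rw [← h] at h1
      have h2 := hlow (n + 1)
      nlinarith [hx (n + 1)]
    rw [← tendsto_add_atTop_iff_nat 1]
    simp [hzero]
  · have hmono : Antitone z := antitone_nat_of_succ_le fun n => by
      nlinarith [hstep n, mul_nonneg (mul_nonneg hq0 hε.le) (sq_nonneg (x n)),
        mul_le_mul_of_nonneg_right hq (hz n)]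
    have hb : BddBelow (Set.range z) := ⟨0, by rintro _ ⟨n, rfl⟩; exact hz n⟩
    have hL := tendsto_atTop_ciInf hmono hb
    have hd : Tendsto (fun n => Real.sqrt ((z n - z (n + 1)) / (q * ε))) atTop (𝓝 0) := by
      have := ((hL.sub (hL.comp (tendsto_add_atTop_nat 1))).div_const (q * ε)).sqrt
      simpa using this
    refine squeeze_zero hx (fun n => ?_) hd
    refine Real.le_sqrt_of_sq_le ?_
    rw [le_div_iff₀ (mul_pos hpos hε)]
    nlinarith [hstep n, mul_le_mul_of_nonneg_right hq (hz n)]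

/-- A potential sends the second moment to zero on regular trees. -/
theorem reg_tX_tendsto_of_pot (h0 : -1 / 2 ≤ l) (h1 : l ≤ 1) (h : PotCert l f) {d : ℕ}
    (hd : (d : ℝ) * l ^ 2 ≤ 1) : Tendsto (fun n => tX l (fullTree d n) n) atTop (𝓝 0) := by
  obtain ⟨c, hc, hlow⟩ := h.lower
  obtain ⟨ε, hε, hstep⟩ := h.step
  refine pot_seq (z := fun n => tZ l f (fullTree d n) n) hc hε
    (by positivity) hd (fun n => (tX_mem h0 h1 _ n).1) (fun n => hlow _ (good_lik h0 h1 _ n))
    (fun n => ?_)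
  have hk := tZ_succ_le h0 h1 h.unit hstep n (fullTree d (n + 1))
  have e : fullTree d (n + 1) = (Tree.cons (fullTree d n))^[d] .nil := rfl
  rw [e, kidsSum_iter, kidsSum_iter, ← e] at hk
  linarith

/-- A potential gives nonreconstruction on regular trees. -/
theorem reg_tendsto_of_pot (h0 : -1 / 2 ≤ l) (h1 : l ≤ 1) (h : PotCert l f) {d : ℕ}
    (hd : (d : ℝ) * l ^ 2 ≤ 1) : Tendsto (aReg l d) atTop (𝓝 0) :=
  aReg_tendsto h0 h1 (reg_tX_tendsto_of_pot h0 h1 h hd)

lemma Ex_kSum {d : ℝ} (hd : 0 ≤ d) (n : ℕ) (g : Tree → ℝ≥0∞) :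
    Ex d (n + 1) (kSum g) = ENNReal.ofReal d * Ex d n g := by
  rw [Ex_succ hd]
  simp only [lev_kSum _ _ (tsum_wgt hd n), ← mul_assoc]
  rw [ENNReal.tsum_mul_right, tsum_pw_mul hd]
  rfl

/-- A potential sends the second moment to zero on Poisson Galton-Watson trees. -/
theorem gw_mGW_tendsto_of_pot (h0 : -1 / 2 ≤ l) (h1 : l ≤ 1) (h : PotCert l f) {d : ℝ} (hd0 : 0 < d)
    (hd : d * l ^ 2 ≤ 1) : Tendsto (mGW l d) atTop (𝓝 0) := by
  obtain ⟨c, hc, hlow⟩ := h.lower
  obtain ⟨C, hup⟩ := h.upper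
  obtain ⟨ε, hε, hstep⟩ := h.step
  have hd' := hd0.le
  have hX := fun t n => tX_mem (l := l) h0 h1 t n
  have hlow' : ∀ t n, c * tX l t n ≤ tZ l f t n := fun t n => hlow _ (good_lik h0 h1 t n)
  have hZ0 : ∀ t n, 0 ≤ tZ l f t n := fun t n =>
    (mul_nonneg hc.le (hX t n).1).trans (hlow' t n)
  have hsZ : ∀ n, Summable (fun t => gwProb d n t * tZ l f t n) := fun n =>
    summable_bdd hd' n (fun t => hZ0 t n) (fun t => hup _ (good_lik h0 h1 t n))
  have hs2 : ∀ n, Summable (fun t => gwProb d n t * tX l t n ^ 2) := fun n =>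
    summable_bdd hd' n (fun t => sq_nonneg _) (fun t => pow_le_one₀ (hX t n).1 (hX t n).2)
  have hsX : ∀ n, Summable (fun t => gwProb d n t * tX l t n) := fun n =>
    summable_tX hd' h0 h1 n n
  refine pot_seq (z := fun n => ∑' t, gwProb d n t * tZ l f t n) hc hε
    (by positivity) hd
    (fun n => tsum_nonneg fun t => mul_nonneg (gwProb_nonneg hd' n t) (hX t n).1)
    (fun n => ?_) (fun n => ?_)
  · unfold mGW
    rw [← tsum_mul_left]
    exact Summable.tsum_le_tsum (fun t => by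
      nlinarith [mul_le_mul_of_nonneg_left (hlow' t n) (gwProb_nonneg hd' n t)])
      ((hsX n).mul_left c) (hsZ n)
  · have hA : ∀ t, 0 ≤ l ^ 2 * ε * tX l t n ^ 2 := fun t => by positivity
    have hB : ∀ t, 0 ≤ l ^ 2 * tZ l f t n := fun t => mul_nonneg (sq_nonneg l) (hZ0 t n)
    have hk := Ex_mono (d := d) (n + 1)
      (F := fun t => ENNReal.ofReal (tZ l f t (n + 1))
        + kSum (fun c => ENNReal.ofReal (l ^ 2 * ε * tX l c n ^ 2)) t)
      (G := kSum (fun c => ENNReal.ofReal (l ^ 2 * tZ l f c n))) (fun t => by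
        rw [← ofReal_kidsSum hA, ← ofReal_kidsSum hB,
          ← ENNReal.ofReal_add (hZ0 t _) (kidsSum_nonneg hA t)]
        exact ENNReal.ofReal_le_ofReal (tZ_succ_le h0 h1 h.unit hstep n t))
    have sA : Summable (fun t => gwProb d n t * (l ^ 2 * ε * tX l t n ^ 2)) := by
      simpa [mul_left_comm] using (hs2 n).mul_left (l ^ 2 * ε)
    have sB : Summable (fun t => gwProb d n t * (l ^ 2 * tZ l f t n)) := by
      simpa [mul_left_comm] using (hsZ n).mul_left (l ^ 2)
    have eA : (∑' t, gwProb d n t * (l ^ 2 * ε * tX l t n ^ 2))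
        = l ^ 2 * ε * ∑' t, gwProb d n t * tX l t n ^ 2 := by
      rw [← tsum_mul_left]; exact tsum_congr fun t => by ring
    have eB : (∑' t, gwProb d n t * (l ^ 2 * tZ l f t n))
        = l ^ 2 * ∑' t, gwProb d n t * tZ l f t n := by
      rw [← tsum_mul_left]; exact tsum_congr fun t => by ring
    have n1 : 0 ≤ ∑' t, gwProb d (n + 1) t * tZ l f t (n + 1) :=
      tsum_nonneg fun t => mul_nonneg (gwProb_nonneg hd' _ t) (hZ0 t _)
    have n2 : 0 ≤ ∑' t, gwProb d n t * tX l t n ^ 2 :=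
      tsum_nonneg fun t => mul_nonneg (gwProb_nonneg hd' _ t) (sq_nonneg _)
    have n3 : 0 ≤ ∑' t, gwProb d n t * tZ l f t n :=
      tsum_nonneg fun t => mul_nonneg (gwProb_nonneg hd' _ t) (hZ0 t _)
    rw [Ex_add, Ex_kSum hd', Ex_kSum hd', Ex_ofReal hd' _ (fun t => hZ0 t _) (hsZ (n + 1)),
      Ex_ofReal hd' _ hA sA, Ex_ofReal hd' _ hB sB, eA, eB, ← ENNReal.ofReal_mul hd',
      ← ENNReal.ofReal_mul hd', ← ENNReal.ofReal_add n1 (by positivity),
      ENNReal.ofReal_le_ofReal_iff (by positivity)] at hk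
    have hsq : mGW l d n ^ 2 ≤ ∑' t, gwProb d n t * tX l t n ^ 2 := by
      set m := mGW l d n with hm
      have hh : (∑' t, (2 * m * (gwProb d n t * tX l t n) - m ^ 2 * gwProb d n t))
          ≤ ∑' t, gwProb d n t * tX l t n ^ 2 :=
        Summable.tsum_le_tsum (fun t => by
          nlinarith [mul_nonneg (gwProb_nonneg hd' n t) (sq_nonneg (tX l t n - m))])
          (((hsX n).mul_left _).sub ((summable_gw hd' n).mul_left _)) (hs2 n)
      rw [Summable.tsum_sub ((hsX n).mul_left _) ((summable_gw hd' n).mul_left _), tsum_mul_left,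
        tsum_mul_left, gw_total hd', show ∑' t, gwProb d n t * tX l t n = m from hm.symm] at hh
      nlinarith
    have := mul_le_mul_of_nonneg_left hsq (show 0 ≤ d * (l ^ 2 * ε) by positivity)
    linarith

/-- A potential gives nonreconstruction on Poisson Galton-Watson trees. -/
theorem gw_tendsto_of_pot (h0 : -1 / 2 ≤ l) (h1 : l ≤ 1) (h : PotCert l f) {d : ℝ} (hd0 : 0 < d)
    (hd : d * l ^ 2 ≤ 1) : Tendsto (aGW l d) atTop (𝓝 0) :=
  aGW_tendsto hd0.le h0 h1 (gw_mGW_tendsto_of_pot h0 h1 h hd0 hd)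

end Vale.Agent.P154.Neg
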