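import Vale.Agent.P154.Neg.Poisson

/-!
# P154: reconstruction above the Kesten-Stigum bound, for every admissible `λ ∈ [-1/2, 1]`

The census estimator gives `X_{n+1} ≥ u / (1 + u)`, `u = d λ² X_n`, so the second moment stays away
from zero when `d λ² > 1`; the total variation dominates the second moment.
-/

namespace Vale.Agent.P154.Neg

open Finset Filter Topology ENNReal

variable {l d : ℝ}

lemma sig_nonneg' (h0 : -1 / 2 ≤ l) (h1 : l ≤ 1) (n : ℕ) (t : Tree) : 0 ≤ sig l n t :=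
  mul_nonneg (sq_nonneg _) (tX_mem h0 h1 t n).1

lemma est_tree' (h0 : -1 / 2 ≤ l) (h1 : l ≤ 1) (n : ℕ) : ∀ t, Est (lik l t (n + 1))
    (kidsSum (sig l n) t) (kidsSum (sig l n) t + kidsPairs (sig l n) t)
  | .nil => by simpa [kidsSum, kidsPairs] using est_zero (lik l Tree.nil (n + 1))
  | .cons c r => by
    have hc := est_self (good_child (good_lik h0 h1 c n) h0 h1)
    rw [chX_child (good_lik h0 h1 c n) l] at hc
    have h := est_prod (good_child (good_lik h0 h1 c n) h0 h1) (good_lik h0 h1 r (n + 1)) hc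
      (est_tree' h0 h1 n r)
    rw [← lik_cons] at h
    simp only [kidsSum, kidsPairs]
    have e : sig l n c + kidsSum (sig l n) r
          + (2 * sig l n c * kidsSum (sig l n) r + kidsPairs (sig l n) r)
        = l ^ 2 * chX (lik l c n) + (kidsSum (sig l n) r + kidsPairs (sig l n) r)
          + 2 * (l ^ 2 * chX (lik l c n)) * kidsSum (sig l n) r := by unfold sig tX; ring
    rw [e]
    exact h

lemma tX_succ_ge' (h0 : -1 / 2 ≤ l) (h1 : l ≤ 1) (n : ℕ) (t : Tree) {c : ℝ} :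
    2 * c * kidsSum (sig l n) t
      ≤ tX l t (n + 1) + c ^ 2 * (kidsSum (sig l n) t + kidsPairs (sig l n) t) := by
  have h : kidsSum (sig l n) t ^ 2
      ≤ tX l t (n + 1) * (kidsSum (sig l n) t + kidsPairs (sig l n) t) :=
    est_le (good_lik h0 h1 t (n + 1)) (est_tree' h0 h1 n t)
  have hA := kidsSum_nonneg (sig_nonneg' h0 h1 n) t
  have hP := kidsPairs_nonneg (sig_nonneg' h0 h1 n) t
  have hX := (tX_mem h0 h1 t (n + 1)).1
  set A := kidsSum (sig l n) t
  set P := kidsPairs (sig l n) t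
  rcases (add_nonneg hA hP).eq_or_lt with hB | hB
  · have : A = 0 := by linarith
    rw [this]; nlinarith [sq_nonneg c]
  · refine le_of_mul_le_mul_right ?_ hB
    nlinarith [sq_nonneg (A - c * (A + P))]

lemma tX_le_aTree' (h0 : -1 / 2 ≤ l) (h1 : l ≤ 1) (t : Tree) (n : ℕ) :
    tX l t n ≤ 3 * aTree l t n := by
  have hG := good_lik h0 h1 t n
  rw [aTree_eq h0 h1]
  have key : ∑ o, ∑ i, (lik l t n o i - mass (lik l t n o) / 3) ^ 2 / mass (lik l t n o)
      ≤ ∑ o, ∑ i, |lik l t n o i - mass (lik l t n o) / 3| := by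
    refine Finset.sum_le_sum fun o _ => Finset.sum_le_sum fun i _ => ?_
    rcases (mass_nonneg (hG.nonneg o)).eq_or_lt with h | h
    · simp [← h, eq_zero_of_mass (hG.nonneg o) h.symm]
    · have hle : |lik l t n o i - mass (lik l t n o) / 3| ≤ mass (lik l t n o) := by
        have := hG.nonneg o 0; have := hG.nonneg o 1; have := hG.nonneg o 2
        rw [abs_le]; fin_cases i <;> constructor <;> simp [mass] <;> linarith
      rw [div_le_iff₀ h, ← sq_abs, sq]
      exact mul_le_mul_of_nonneg_left hle (abs_nonneg _)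
  rw [two_chX hG] at key
  unfold tX
  linarith

/-- Reconstruction on the `d`-ary tree above the Kesten-Stigum bound. -/
theorem reg_reconstruction {d : ℕ} (h0 : -1 / 2 ≤ l) (h1 : l ≤ 1) (hq : 1 < (d : ℝ) * l ^ 2) :
    ∃ c > 0, ∀ n, c ≤ aReg l d n := by
  refine ⟨((d : ℝ) * l ^ 2 - 1) / ((d : ℝ) * l ^ 2) / 3,
    div_pos (div_pos (by linarith) (by linarith)) (by norm_num), fun n => ?_⟩
  have hstep : ∀ n, (d : ℝ) * l ^ 2 * mReg l d n / (1 + (d : ℝ) * l ^ 2 * mReg l d n)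
      ≤ mReg l d (n + 1) := by
    intro n
    have hy : 0 ≤ (d : ℝ) * l ^ 2 * mReg l d n :=
      mul_nonneg (by positivity) (tX_mem h0 h1 _ n).1
    set u := (d : ℝ) * l ^ 2 * mReg l d n with hu
    have h := tX_succ_ge' h0 h1 n (fullTree d (n + 1)) (c := 1 / (1 + u))
    rw [fullTree, kidsSum_iter, kidsPairs_iter, sig] at h
    rw [show (d : ℝ) * (l ^ 2 * tX l (fullTree d n) n) = u by rw [hu, mReg]; ring] at h
    have hp : (d : ℝ) * ((d : ℝ) - 1) * (l ^ 2 * tX l (fullTree d n) n) ^ 2 ≤ u ^ 2 := by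
      rw [hu, mReg]
      nlinarith [mul_nonneg (Nat.cast_nonneg (α := ℝ) d)
        (sq_nonneg (l ^ 2 * tX l (fullTree d n) n))]
    have hc := mul_le_mul_of_nonneg_left hp (sq_nonneg (1 / (1 + u)))
    have e : 2 * (1 / (1 + u)) * u - (1 / (1 + u)) ^ 2 * (u + u ^ 2) = u / (1 + u) := by
      have : (1 + u) ≠ 0 := by linarith
      field_simp; ring
    unfold mReg
    rw [fullTree]
    linarith
  have h := seq_lower (m := mReg l d) hq ?_ (fun n => (tX_mem h0 h1 _ n).1) hstep n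
  · have := tX_le_aTree' h0 h1 (fullTree d n) n
    unfold aReg
    unfold mReg at h
    linarith
  · rw [mReg, tX_zero, div_le_one (by linarith)]; linarith

lemma mGW_nonneg' (hd : 0 ≤ d) (h0 : -1 / 2 ≤ l) (h1 : l ≤ 1) (n : ℕ) : 0 ≤ mGW l d n :=
  tsum_nonneg fun t => mul_nonneg (gwProb_nonneg hd n t) (tX_mem h0 h1 t n).1

lemma Ex_X' (hd : 0 ≤ d) (h0 : -1 / 2 ≤ l) (h1 : l ≤ 1) (n : ℕ) :
    Ex d n (fun t => ENNReal.ofReal (tX l t n)) = ENNReal.ofReal (mGW l d n) :=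
  Ex_ofReal hd n (fun t => (tX_mem h0 h1 t n).1) (summable_tX hd h0 h1 n n)

lemma Ex_sig' (hd : 0 ≤ d) (h0 : -1 / 2 ≤ l) (h1 : l ≤ 1) (n : ℕ) :
    ∑' t, wgt d n t * ENNReal.ofReal (sig l n t) = ENNReal.ofReal (l ^ 2 * mGW l d n) := by
  have : ∀ t, wgt d n t * ENNReal.ofReal (sig l n t)
      = ENNReal.ofReal (l ^ 2) * (wgt d n t * ENNReal.ofReal (tX l t n)) := by
    intro t; rw [sig, ENNReal.ofReal_mul (sq_nonneg l)]; ring
  simp only [this, ENNReal.tsum_mul_left]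
  rw [show ∑' t, wgt d n t * ENNReal.ofReal (tX l t n) = ENNReal.ofReal (mGW l d n) from
    Ex_X' hd h0 h1 n, ← ENNReal.ofReal_mul (sq_nonneg l)]

lemma Ex_kidsSum' (hd : 0 ≤ d) (h0 : -1 / 2 ≤ l) (h1 : l ≤ 1) (n : ℕ) :
    Ex d (n + 1) (fun t => ENNReal.ofReal (kidsSum (sig l n) t))
      = ENNReal.ofReal (d * l ^ 2 * mGW l d n) := by
  simp only [ofReal_kidsSum (sig_nonneg' h0 h1 n)]
  rw [Ex_succ hd]
  simp only [lev_kSum _ _ (tsum_wgt hd n), Ex_sig' hd h0 h1, ← mul_assoc]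
  rw [ENNReal.tsum_mul_right, tsum_pw_mul hd, ← ENNReal.ofReal_mul hd]
  congr 1; ring

lemma Ex_kidsPairs' (hd : 0 ≤ d) (h0 : -1 / 2 ≤ l) (h1 : l ≤ 1) (n : ℕ) :
    Ex d (n + 1) (fun t => ENNReal.ofReal (kidsPairs (sig l n) t))
      = ENNReal.ofReal ((d * l ^ 2 * mGW l d n) ^ 2) := by
  simp only [ofReal_kidsPairs (sig_nonneg' h0 h1 n)]
  rw [Ex_succ hd]
  simp only [lev_kPairs _ _ (tsum_wgt hd n), Ex_sig' hd h0 h1, ← mul_assoc]
  rw [ENNReal.tsum_mul_right, tsum_pw_pairs hd,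
    ← ENNReal.ofReal_pow (mul_nonneg (sq_nonneg l) (mGW_nonneg' hd h0 h1 n)),
    ← ENNReal.ofReal_pow hd, ← ENNReal.ofReal_mul (sq_nonneg d)]
  congr 1; ring

lemma mGW_step' (hd : 0 ≤ d) (h0 : -1 / 2 ≤ l) (h1 : l ≤ 1) (n : ℕ) :
    d * l ^ 2 * mGW l d n / (1 + d * l ^ 2 * mGW l d n) ≤ mGW l d (n + 1) := by
  set u := d * l ^ 2 * mGW l d n with hu
  have hu0 : 0 ≤ u := mul_nonneg (mul_nonneg hd (sq_nonneg l)) (mGW_nonneg' hd h0 h1 n)
  set c := 1 / (1 + u) with hc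
  have hc0 : 0 ≤ c := by positivity
  have h := Ex_mono (d := d) (n + 1)
    (F := fun t => ENNReal.ofReal (2 * c) * ENNReal.ofReal (kidsSum (sig l n) t))
    (G := fun t => ENNReal.ofReal (tX l t (n + 1)) + ENNReal.ofReal (c ^ 2) *
      (ENNReal.ofReal (kidsSum (sig l n) t) + ENNReal.ofReal (kidsPairs (sig l n) t))) (fun t => by
    have hA := kidsSum_nonneg (sig_nonneg' h0 h1 n) t
    have hP := kidsPairs_nonneg (sig_nonneg' h0 h1 n) t
    rw [← ENNReal.ofReal_add hA hP, ← ENNReal.ofReal_mul (sq_nonneg c),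
      ← ENNReal.ofReal_add (tX_mem h0 h1 t (n + 1)).1 (mul_nonneg (sq_nonneg c) (add_nonneg hA hP)),
      ← ENNReal.ofReal_mul (by positivity)]
    exact ENNReal.ofReal_le_ofReal (tX_succ_ge' h0 h1 n t))
  rw [Ex_mul, Ex_add, Ex_mul, Ex_add, Ex_X' hd h0 h1, Ex_kidsSum' hd h0 h1,
    Ex_kidsPairs' hd h0 h1, ← hu, ← ENNReal.ofReal_add hu0 (sq_nonneg u),
    ← ENNReal.ofReal_mul (sq_nonneg c),
    ← ENNReal.ofReal_add (mGW_nonneg' hd h0 h1 _) (mul_nonneg (sq_nonneg c) (by positivity)),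
    ← ENNReal.ofReal_mul (by positivity),
    ENNReal.ofReal_le_ofReal_iff (add_nonneg (mGW_nonneg' hd h0 h1 _) (by positivity))] at h
  have e : 2 * c * u - c ^ 2 * (u + u ^ 2) = u / (1 + u) := by
    rw [hc]
    have : (1 + u) ≠ 0 := by linarith
    field_simp; ring
  linarith

/-- Reconstruction on Poisson Galton-Watson trees above the Kesten-Stigum bound. -/
theorem gw_reconstruction (hd : 0 < d) (h0 : -1 / 2 ≤ l) (h1 : l ≤ 1) (hq : 1 < d * l ^ 2) :
    ∃ c > 0, ∀ n, c ≤ aGW l d n := by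
  have hd' := hd.le
  refine ⟨(d * l ^ 2 - 1) / (d * l ^ 2) / 3,
    div_pos (div_pos (by linarith) (by linarith)) (by norm_num), fun n => ?_⟩
  have h := seq_lower (m := mGW l d) hq ?_ (mGW_nonneg' hd' h0 h1) (mGW_step' hd' h0 h1) n
  · have hs := summable_bdd hd' n (fun t => aTree_nonneg h0 h1 t n) (B := 2) fun t => by
      have := aTree_le h0 h1 t n one_pos
      have := (tX_mem h0 h1 t n).2
      linarith
    have h2 : mGW l d n ≤ ∑' t, 3 * (gwProb d n t * aTree l t n) :=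
      Summable.tsum_le_tsum (fun t => by
        refine (mul_le_mul_of_nonneg_left (tX_le_aTree' h0 h1 t n) (gwProb_nonneg hd' n t)).trans
          (le_of_eq ?_)
        ring) (summable_tX hd' h0 h1 n n) (hs.mul_left _)
    rw [tsum_mul_left] at h2
    unfold aGW
    linarith
  · have : mGW l d 0 = 1 := by simp [mGW, tX_zero, gw_total hd']
    rw [this, div_le_one (by linarith)]; linarith

end Vale.Agent.P154.Neg
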