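import Vale.Agent.P154.Neg.Mono

/-!
# P154: thinning a Poisson tree

The edge `s * l` is a mixture of the edge `l` and an erasure, so a Poisson tree of mean `d` with edge
`s * l` is dominated by one of mean `d * s` with edge `l`.
-/

namespace Vale.Agent.P154.Neg

open Finset Filter Topology ENNReal

variable {l d s : ℝ} {f : (Fin 3 → ℝ) → ℝ}

/-- Binomial weights. -/
noncomputable def bw (s : ℝ) (k j : ℕ) : ℝ≥0∞ :=
  ENNReal.ofReal ((k.choose j : ℝ) * s ^ j * (1 - s) ^ (k - j))

/-- Average of a sequence over a thinned count. -/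
noncomputable def thin (s : ℝ) (k : ℕ) (a : ℕ → ℝ≥0∞) : ℝ≥0∞ := ∑' j, bw s k j * a j

lemma bw_succ (hs0 : 0 ≤ s) (hs1 : s ≤ 1) (k j : ℕ) : bw s (k + 1) (j + 1)
    = ENNReal.ofReal s * bw s k j + ENNReal.ofReal (1 - s) * bw s k (j + 1) := by
  have h1 : 0 ≤ 1 - s := by linarith
  rw [bw, bw, bw, ← ENNReal.ofReal_mul hs0, ← ENNReal.ofReal_mul h1,
    ← ENNReal.ofReal_add (by positivity) (by positivity), Nat.choose_succ_succ, Nat.cast_add,
    Nat.add_sub_add_right]
  congr 1
  rcases Nat.lt_or_ge j k with h | h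
  · rw [show k - j = (k - (j + 1)) + 1 by omega, pow_succ, pow_succ]; ring
  · rw [Nat.choose_eq_zero_of_lt (Nat.lt_succ_of_le h)]; simp only [Nat.cast_zero]; ring

lemma thin_succ (hs0 : 0 ≤ s) (hs1 : s ≤ 1) (k : ℕ) (a : ℕ → ℝ≥0∞) : thin s (k + 1) a
    = ENNReal.ofReal s * thin s k (fun j => a (j + 1)) + ENNReal.ofReal (1 - s) * thin s k a := by
  have h1 : 0 ≤ 1 - s := by linarith
  have e0 : bw s (k + 1) 0 = ENNReal.ofReal (1 - s) * bw s k 0 := by
    rw [bw, bw, ← ENNReal.ofReal_mul h1]
    simp [pow_succ]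
    ring_nf
  rw [thin, thin, thin, tsum_eq_zero_add' ENNReal.summable,
    tsum_eq_zero_add' (f := fun j => bw s k j * a j) ENNReal.summable]
  simp only [bw_succ hs0 hs1, add_mul, mul_add, ENNReal.tsum_add, mul_assoc, ENNReal.tsum_mul_left,
    e0]
  rw [add_left_comm]

lemma tsum_pw_bw (hd : 0 ≤ d) (hs0 : 0 ≤ s) (hs1 : s ≤ 1) (j : ℕ) :
    ∑' k, pw d k * bw s k j = pw (d * s) j := by
  have h1 : 0 ≤ 1 - s := by linarith
  have hz : (Function.support fun k => pw d k * bw s k j) ⊆ Set.range (fun i => i + j) := by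
    intro k hk
    by_contra hc
    have : k < j := by
      by_contra h
      exact hc ⟨k - j, by simp; omega⟩
    simp [bw, Nat.choose_eq_zero_of_lt this] at hk
  rw [← (add_left_injective j).tsum_eq hz]
  calc ∑' i, pw d (i + j) * bw s (i + j) j = ∑' i, pw (d * s) j * pw (d * (1 - s)) i := by
        refine tsum_congr fun i => ?_
        rw [bw, pw, pw, pw, ← ENNReal.ofReal_mul (by positivity),
          ← ENNReal.ofReal_mul (by positivity), Nat.add_sub_cancel]
        congr 1
        rw [show -d = -(d * s) + -(d * (1 - s)) by ring, Real.exp_add]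
        have hc : ((i + j).choose j : ℝ) * j.factorial * i.factorial = (i + j).factorial := by
          exact_mod_cast (by rw [mul_right_comm]; exact Nat.add_choose_mul_factorial_mul_factorial i j : (i + j).choose j * j.factorial * i.factorial = (i + j).factorial)
        have hC : ((i + j).choose j : ℝ) ≠ 0 :=
          Nat.cast_ne_zero.2 (Nat.choose_pos (Nat.le_add_left j i)).ne'
        rw [← hc, mul_pow, mul_pow, pow_add]
        field_simp
    _ = pw (d * s) j := by rw [ENNReal.tsum_mul_left, tsum_pw (by positivity), mul_one]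

lemma tot_cons_mix (h0 : -1 / 2 ≤ l) (h1 : l ≤ 1) (hs0 : 0 ≤ s) (hs1 : s ≤ 1) (hf : Adm f)
    (c r : Tree) (n : ℕ) : tot (s * l) f (.cons c r) (n + 1)
      ≤ s * (∑ a, ∑ b, f (fun i => edge l (lik (s * l) c n a) i * lik (s * l) r (n + 1) b i))
        + (1 - s) * tot (s * l) f r (n + 1) := by
  have e0 : -1 / 2 ≤ s * l := by
    nlinarith [mul_le_mul_of_nonneg_left h0 hs0]
  have e1 : s * l ≤ 1 := by nlinarith [mul_le_mul_of_nonneg_left h1 hs0]
  have hc := good_lik e0 e1 c n
  have hr := (good_lik e0 e1 r (n + 1)).nonneg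
  have h1s : 0 ≤ 1 - s := by linarith
  calc tot (s * l) f (.cons c r) (n + 1)
      ≤ ∑ a, ∑ b, (s * f (fun i => edge l (lik (s * l) c n a) i * lik (s * l) r (n + 1) b i)
          + (1 - s) * (mass (lik (s * l) c n a) / 3 * f (lik (s * l) r (n + 1) b))) := by
        rw [tot_cons]
        refine Finset.sum_le_sum fun a _ => Finset.sum_le_sum fun b _ => ?_
        have hx := edge_nonneg_neg h0 h1 (hc.nonneg a)
        have hm := mass_nonneg (hc.nonneg a)
        have hy := hr b
        rw [← mul_assoc, ← hf.smul s _ hs0 fun i => mul_nonneg (hx i) (hy i),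
          ← hf.smul _ _ (by positivity) hy]
        refine le_trans (le_of_eq ?_) (hf.add_le _ _
          (fun i => mul_nonneg hs0 (mul_nonneg (hx i) (hy i))) fun i => mul_nonneg (by positivity) (hy i))
        congr 1; funext i
        simp only [P154.edge]; ring
    _ = _ := by
        simp only [Finset.sum_add_distrib, ← Finset.mul_sum, tot]
        rw [← Finset.sum_mul, ← Finset.sum_div, hc.sum_mass]; ring

/-- The thinning bound for a root with a given number of children. -/
theorem lev_tot_thin (h0 : -1 / 2 ≤ l) (h1 : l ≤ 1) (hd : 0 ≤ d) (hs0 : 0 ≤ s) (hs1 : s ≤ 1) (n : ℕ)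
    (ih : ∀ {f : (Fin 3 → ℝ) → ℝ}, Adm f → Ex d n (fun t => ENNReal.ofReal (tot (s * l) f t n))
      ≤ Ex (d * s) n (fun t => ENNReal.ofReal (tot l f t n))) :
    ∀ (k : ℕ) {f : (Fin 3 → ℝ) → ℝ}, Adm f →
      lev (wgt d n) k (fun t => ENNReal.ofReal (tot (s * l) f t (n + 1)))
        ≤ thin s k fun j => lev (wgt (d * s) n) j (fun t => ENNReal.ofReal (tot l f t (n + 1))) := by
  have e0 : -1 / 2 ≤ s * l := by
    nlinarith [mul_le_mul_of_nonneg_left h0 hs0]
  have e1 : s * l ≤ 1 := by nlinarith [mul_le_mul_of_nonneg_left h1 hs0]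
  set w := wgt d n
  set w' := wgt (d * s) n
  intro k
  induction k with
  | zero =>
    intro f _
    refine le_trans (le_of_eq ?_) (ENNReal.le_tsum 0)
    simp [bw, lev_zero, tot_nil]
  | succ k ihk =>
    intro f hf
    have hl := fun c a => edge_nonneg_neg h0 h1 ((good_lik e0 e1 c n).nonneg a)
    have hG : ∀ r, Adm (fun x => ∑ b, f (fun i => edge l x i * lik l r (n + 1) b i)) :=
      fun r => (adm_mulSum hf (good_lik h0 h1 r (n + 1)).nonneg).comp_edge h0 h1
    have nn : ∀ c r, 0 ≤ ∑ a, ∑ b,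
        f (fun i => edge l (lik (s * l) c n a) i * lik (s * l) r (n + 1) b i) := fun c r =>
      Finset.sum_nonneg fun a _ => Finset.sum_nonneg fun b _ =>
        hf.nonneg _ fun i => mul_nonneg (hl c a i) ((good_lik e0 e1 r (n + 1)).nonneg b i)
    have step : ∀ c, lev w k (fun r => ENNReal.ofReal (tot (s * l) f (.cons c r) (n + 1)))
        ≤ ENNReal.ofReal s * thin s k (fun j => lev w' j (fun r => ENNReal.ofReal
            (tot (s * l) (fun x => ∑ b, f (fun i => edge l x i * lik l r (n + 1) b i)) c n)))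
          + ENNReal.ofReal (1 - s)
            * lev w k (fun r => ENNReal.ofReal (tot (s * l) f r (n + 1))) := by
      intro c
      refine (lev_mono w k fun r => (ENNReal.ofReal_le_ofReal
        (tot_cons_mix h0 h1 hs0 hs1 hf c r n)).trans ENNReal.ofReal_add_le).trans ?_
      simp only [ENNReal.ofReal_mul hs0, ENNReal.ofReal_mul (sub_nonneg.2 hs1), lev_add, lev_mul]
      refine add_le_add_left (mul_le_mul_right ?_ _) _
      have eq : ∀ r, ENNReal.ofReal (∑ a, ∑ b,
          f (fun i => edge l (lik (s * l) c n a) i * lik (s * l) r (n + 1) b i)) = ∑ a,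
          ENNReal.ofReal (tot (s * l) (fun y => f (fun i => edge l (lik (s * l) c n a) i * y i))
            r (n + 1)) := fun r => ENNReal.ofReal_sum_of_nonneg fun a _ =>
        Finset.sum_nonneg fun b _ =>
          hf.nonneg _ fun i => mul_nonneg (hl c a i) ((good_lik e0 e1 r (n + 1)).nonneg b i)
      simp only [eq, lev_sum]
      refine (Finset.sum_le_sum fun a _ => ihk (hf.mul_left (hl c a))).trans (le_of_eq ?_)
      simp only [thin]
      rw [← Summable.tsum_finsetSum fun _ _ => ENNReal.summable]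
      refine tsum_congr fun j => ?_
      rw [← Finset.mul_sum, ← lev_sum]
      congr 2; funext r
      exact (ENNReal.ofReal_sum_of_nonneg fun a _ => Finset.sum_nonneg fun b _ =>
        hf.nonneg _ fun i => mul_nonneg (hl c a i) ((good_lik h0 h1 r (n + 1)).nonneg b i)).symm
    rw [lev_succ, thin_succ hs0 hs1]
    refine (ENNReal.tsum_le_tsum fun c => mul_le_mul_right (step c) _).trans ?_
    simp only [mul_add, ENNReal.tsum_add]
    refine add_le_add ?_ ?_
    · simp only [mul_left_comm _ (ENNReal.ofReal s), ENNReal.tsum_mul_left]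
      refine mul_le_mul_right ?_ _
      simp only [thin, ← ENNReal.tsum_mul_left, mul_left_comm (w _)]
      rw [ENNReal.tsum_comm]
      refine ENNReal.tsum_le_tsum fun j => ?_
      rw [ENNReal.tsum_mul_left]
      refine mul_le_mul_right ?_ _
      rw [lev_succ]
      simp only [lev, ← ENNReal.tsum_mul_left]
      rw [ENNReal.tsum_comm]
      conv_rhs => rw [ENNReal.tsum_comm]
      refine ENNReal.tsum_le_tsum fun r => ?_
      split_ifs
      · simp only [mul_left_comm _ (kp w' r), ENNReal.tsum_mul_left]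
        refine mul_le_mul_right ((ih (hG r)).trans (le_of_eq ?_)) _
        refine tsum_congr fun c => ?_
        rw [tot_cons]
        rfl
      · simp
    · rw [ENNReal.tsum_mul_right, tsum_wgt hd n, one_mul]
      exact mul_le_mul_right (ihk hf) _

/-- Thinning: a weaker edge on a Poisson tree is dominated by fewer stronger edges. -/
theorem Ex_tot_thin (h0 : -1 / 2 ≤ l) (h1 : l ≤ 1) (hd : 0 ≤ d) (hs0 : 0 ≤ s) (hs1 : s ≤ 1) :
    ∀ (n : ℕ) {f : (Fin 3 → ℝ) → ℝ}, Adm f →
      Ex d n (fun t => ENNReal.ofReal (tot (s * l) f t n))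
        ≤ Ex (d * s) n (fun t => ENNReal.ofReal (tot l f t n)) := by
  intro n
  induction n with
  | zero =>
    intro f _
    have e : wgt d 0 = wgt (d * s) 0 := by funext t; cases t <;> rfl
    rw [Ex, Ex, e]
    exact le_of_eq (tsum_congr fun t => by cases t <;> rfl)
  | succ n ih =>
    have key := lev_tot_thin h0 h1 hd hs0 hs1 n ih
    intro f hf
    rw [Ex_succ hd, Ex_succ (mul_nonneg hd hs0)]
    refine (ENNReal.tsum_le_tsum fun k => mul_le_mul_right (key k hf) _).trans (le_of_eq ?_)
    simp only [thin, ← ENNReal.tsum_mul_left, ← mul_assoc]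
    rw [ENNReal.tsum_comm]
    refine tsum_congr fun j => ?_
    rw [ENNReal.tsum_mul_right, tsum_pw_bw hd hs0 hs1 j]

/-- Second moments under thinning. -/
theorem mGW_thin (h0 : -1 / 2 ≤ l) (h1 : l ≤ 1) (hd : 0 ≤ d) (hs0 : 0 ≤ s) (hs1 : s ≤ 1)
    (n : ℕ) : mGW (s * l) d n ≤ mGW l (d * s) n := by
  have e0 : -1 / 2 ≤ s * l := by
    nlinarith [mul_le_mul_of_nonneg_left h0 hs0]
  have e1 : s * l ≤ 1 := by nlinarith [mul_le_mul_of_nonneg_left h1 hs0]
  have hds := mul_nonneg hd hs0
  have h := Ex_tot_thin h0 h1 hd hs0 hs1 n adm_sX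
  simp only [tot_sX e0 e1, tot_sX h0 h1] at h
  rw [Ex_ofReal hd n (fun t => (tX_mem e0 e1 t n).1) (summable_tX hd e0 e1 n n),
    Ex_ofReal hds n (fun t => (tX_mem h0 h1 t n).1) (summable_tX hds h0 h1 n n)] at h
  exact (ENNReal.ofReal_le_ofReal_iff (tsum_nonneg fun t =>
    mul_nonneg (gwProb_nonneg hds n t) (tX_mem h0 h1 t n).1)).1 h

end Vale.Agent.P154.Neg
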