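import Vale.Agent.P154.AnyTree
import Vale.Agent.P154.Neg.Pot
import Vale.Agent.P154.Neg.Recon
import Vale.Agent.P154.Neg.Thin

/-!
# P154: assembly for three states

The threshold theorem from three kinds of pieces: potentials on `[-1/3, 0]`, small-moment lemmas and
eventual bounds (runs) at the rational boxes `regBoxes`, `gwBoxes`. The pieces are hypotheses here.
-/

namespace Vale.Agent.P154.Neg

open Finset Filter Topology

/-- Both directions at every admissible parameter, on both tree models. -/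
def ThreeState : Prop :=
  (∀ d : ℕ, 2 ≤ d → ∀ l ∈ Set.Icc (-1 / 2 : ℝ) 1,
    ((d : ℝ) * l ^ 2 ≤ 1 → Tendsto (aReg l d) atTop (𝓝 0)) ∧
    (1 < (d : ℝ) * l ^ 2 → ∃ c > 0, ∀ n, c ≤ aReg l d n)) ∧
  (∀ d : ℝ, 0 < d → ∀ l ∈ Set.Icc (-1 / 2 : ℝ) 1,
    (d * l ^ 2 ≤ 1 → Tendsto (aGW l d) atTop (𝓝 0)) ∧
    (1 < d * l ^ 2 → ∃ c > 0, ∀ n, c ≤ aGW l d n))

/-- The thinned mean of a point of a Poisson window stays below the mean of the run. -/
lemma thin_mean_le {d D l L : ℝ} (hd0 : 0 ≤ d) (hD : 0 ≤ D) (hL0 : L < 0) (hl0 : l ≤ 0)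
    (hd : d ≤ (D * L) ^ 2) (hq : d * l ^ 2 ≤ 1) : d * (l / L) ≤ D := by
  rw [← mul_div_assoc, div_le_iff_of_neg hL0]
  nlinarith [mul_le_mul_of_nonneg_left hq hd0, hd, mul_nonneg hD (neg_nonneg.2 hL0.le),
    mul_nonneg hd0 (neg_nonneg.2 hl0), sq_nonneg (d * l - D * L)]

/-- A potential at every edge in `[-1/3, 0]`. -/
def PotRange : Prop := ∀ l ∈ Set.Icc (-1 / 3 : ℝ) 0, ∃ f, PotCert l f

/-- Below `δ` the second moment contracts to zero, at every critical or subcritical edge `≥ L`. -/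
def SmallReg (d : ℕ) (L δ : ℝ) : Prop := ∀ l ∈ Set.Icc L 0, (d : ℝ) * l ^ 2 ≤ 1 →
  (∀ᶠ n in atTop, tX l (fullTree d n) n ≤ δ) →
    Tendsto (fun n => tX l (fullTree d n) n) atTop (𝓝 0)

/-- The same for Poisson trees of mean in the window `(a, b]`. -/
def SmallGW (a b L δ : ℝ) : Prop := ∀ d ∈ Set.Ioc a b, ∀ l ∈ Set.Icc L 0, d * l ^ 2 ≤ 1 →
  (∀ᶠ n in atTop, mGW l d n ≤ δ) → Tendsto (mGW l d) atTop (𝓝 0)

/-- The pieces of a regular box: a run at the rational edge `L` reaching a small level. -/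
def RegBox (d : ℕ) (L : ℝ) : Prop :=
  ∃ δ, SmallReg d L δ ∧ ∀ᶠ n in atTop, tX L (fullTree d n) n ≤ δ

/-- The pieces of a Poisson box: a run at `(D, L)`; it serves the means in `(a, (D L)²]`. -/
def GWBox (a D L : ℝ) : Prop :=
  ∃ δ, SmallGW a ((D * L) ^ 2) L δ ∧ ∀ᶠ n in atTop, mGW L D n ≤ δ

/-- Regular boxes: children, edge. -/
def regBoxes : List (ℕ × ℚ) := [(4, -1/2), (5, -17/38), (6, -29/71), (7, -31/82), (8, -17/48)]

/-- Poisson runs: mean, edge. -/
def gwBoxes : List (ℚ × ℚ) :=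
  [(101/25, -1/2), (413/100, -50/101), (423/100, -45/92), (433/100, -29/60), (111/25, -54/113),
   (114/25, -74/157), (117/25, -67/144), (481/100, -62/135), (99/20, -67/148), (51/10, -54/121),
   (263/50, -29/66), (543/100, -45/104), (281/50, -83/195), (583/100, -74/177), (121/20, -71/173),
   (157/25, -29/72), (653/100, -17/43), (34/5, -43/111), (709/100, -41/108), (37/5, -68/183),
   (193/25, -71/195), (809/100, -37/104), (212/25, -41/118), (89/10, -56/165)]

/-- Nonreconstruction at a regular box. -/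
def RegLim (d : ℕ) (L : ℝ) : Prop := ∀ l ∈ Set.Ico L 0, (d : ℝ) * l ^ 2 ≤ 1 →
  Tendsto (fun n => tX l (fullTree d n) n) atTop (𝓝 0)

/-- Nonreconstruction at a Poisson box. -/
def GWLim (a D L : ℝ) : Prop := ∀ d ∈ Set.Ioc a ((D * L) ^ 2), 0 < d → ∀ l ∈ Set.Ico L 0,
  d * l ^ 2 ≤ 1 → Tendsto (mGW l d) atTop (𝓝 0)

/-- All Poisson pieces, each window starting where the one before ends. -/
def GWPieces : List (ℚ × ℚ) → ℚ → Prop
  | [], _ => True
  | (D, L) :: r, a => GWLim a D L ∧ GWPieces r ((D * L) ^ 2)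

/-- A run and a small-moment lemma settle a regular box. -/
theorem regLim_of_box {d : ℕ} {L : ℝ} (hL : -1 / 2 ≤ L) (hB : RegBox d L) : RegLim d L := by
  obtain ⟨δ, hS, hR⟩ := hB
  intro l hl hq
  exact hS l ⟨hl.1, hl.2.le⟩ hq
    (hR.mono fun n hn => (tX_full_mono hL hl.1 hl.2.le le_rfl n).trans hn)

/-- A run and a small-moment lemma settle a Poisson box. -/
theorem gwLim_of_box {a D L : ℝ} (hD : 0 ≤ D) (hL : -1 / 2 ≤ L) (hL0 : L < 0) (hB : GWBox a D L) :
    GWLim a D L := by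
  obtain ⟨δ, hS, hR⟩ := hB
  intro d hd hd0 l hl hq
  refine hS d hd l ⟨hl.1, hl.2.le⟩ hq (hR.mono fun n hn => ?_)
  have hl0 := hl.2.le
  have hs0 : 0 ≤ l / L := div_nonneg_of_nonpos hl0 hL0.le
  have hs1 : l / L ≤ 1 := (div_le_one_of_neg hL0).2 hl.1
  calc mGW l d n = mGW (l / L * L) d n := by rw [div_mul_cancel₀ _ hL0.ne]
    _ ≤ mGW L (d * (l / L)) n := mGW_thin hL (by linarith) hd0.le hs0 hs1 n
    _ ≤ mGW L D n := mGW_mono hL le_rfl hL0.le (mul_nonneg hd0.le hs0)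
        (thin_mean_le hd0.le hD hL0 hl0 hd.2 hq) n
    _ ≤ δ := hn

/-- The runs in a list cover the means in `(a, b]`. -/
def covers : List (ℚ × ℚ) → ℚ → ℚ → Bool
  | [], a, b => decide (b ≤ a)
  | (D, L) :: r, a, b => decide (0 ≤ D ∧ -1/2 ≤ L ∧ L < 0 ∧ (L = -1/2 ∨ (0 ≤ a ∧ 1 ≤ a * L ^ 2)))
      && covers r ((D * L) ^ 2) b

/-- The regular boxes give every critical or subcritical negative edge below `-1/3`. -/
theorem reg_window (hb : ∀ b ∈ regBoxes, RegLim b.1 (b.2 : ℝ)) {d : ℕ} {l : ℝ} (h0 : -1 / 2 ≤ l)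
    (hl : l < -1 / 3) (hq : (d : ℝ) * l ^ 2 ≤ 1) : Tendsto (aReg l d) atTop (𝓝 0) := by
  have hl0 : l < 0 := by linarith
  have h9 : d ≤ 8 := by
    by_contra h
    have : (9 : ℝ) ≤ d := by exact_mod_cast (by omega : 9 ≤ d)
    nlinarith
  rcases Nat.lt_or_ge 4 d with h | h
  · have hbox : ∃ b ∈ regBoxes, b.1 = d ∧ -1 / 2 ≤ (b.2 : ℝ) ∧ (b.2 : ℝ) ≤ 0 ∧
        1 ≤ (d : ℝ) * (b.2 : ℝ) ^ 2 := by
      interval_cases d <;> norm_num [regBoxes]
    obtain ⟨b, hm, rfl, hL, hL0, hd⟩ := hbox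
    have hLl : (b.2 : ℝ) ≤ l := by
      have : (0 : ℝ) < b.1 := by exact_mod_cast (by omega : 0 < b.1)
      by_contra hc
      rw [not_le] at hc
      nlinarith [mul_pos this (mul_pos (sub_pos.2 hc) (neg_pos.2 (by linarith : l + b.2 < 0)))]
    exact aReg_tendsto h0 (by linarith) (hb b hm l ⟨hLl, hl0⟩ hq)
  · have hb4 := hb (4, -1/2) (by simp [regBoxes]) (-1 / 2) ⟨by norm_num, by norm_num⟩ (by norm_num)
    exact aReg_tendsto_of_box le_rfl h0 hl0.le h hb4

/-- A covering list settles its interval. -/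
theorem gw_chain : ∀ (r : List (ℚ × ℚ)) (a b : ℚ), covers r a b = true → GWPieces r a →
    ∀ {d l : ℝ}, 0 < d → (a : ℝ) < d → d ≤ b → -1 / 2 ≤ l → l < 0 → d * l ^ 2 ≤ 1 →
      Tendsto (mGW l d) atTop (𝓝 0)
  | [], a, b, hc, _, d, l, _, had, hdb, _, _, _ => by
    have : (b : ℝ) ≤ a := by exact_mod_cast of_decide_eq_true hc
    linarith
  | (D, L) :: r, a, b, hc, hp, d, l, hd0, had, hdb, h0, hl0, hq => by
    simp only [covers, Bool.and_eq_true, decide_eq_true_eq] at hc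
    obtain ⟨⟨-, -, hL0, hcase⟩, hr⟩ := hc
    rcases le_or_gt d (((D * L) ^ 2 : ℚ) : ℝ) with h | h
    · have hL0' : (L : ℝ) < 0 := by exact_mod_cast hL0
      have hLl : (L : ℝ) ≤ l := by
        rcases hcase with rfl | ⟨ha, hc⟩
        · push_cast; exact h0
        · have hc' : (1 : ℝ) ≤ a * L ^ 2 := by exact_mod_cast hc
          have ha' : (0 : ℝ) ≤ a := by exact_mod_cast ha
          by_contra hn
          rw [not_le] at hn
          nlinarith [mul_nonneg hd0.le (mul_nonneg (sub_nonneg.2 hn.le)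
            (by linarith : (0 : ℝ) ≤ -(L : ℝ) - l)),
            mul_lt_mul_of_pos_right had (mul_pos_of_neg_of_neg hL0' hL0')]
      push_cast at h
      exact hp.1 d ⟨had, h⟩ hd0 l ⟨hLl, hl0⟩ hq
    · exact gw_chain r _ b hr hp.2 hd0 h hdb h0 hl0 hq

/-- The Poisson pieces give every critical or subcritical negative edge below `-1/3`. -/
theorem gw_window (hp : GWPieces gwBoxes (39/10)) {d l : ℝ} (hd0 : 0 < d) (h0 : -1 / 2 ≤ l)
    (hl : l < -1 / 3) (hq : d * l ^ 2 ≤ 1) : Tendsto (aGW l d) atTop (𝓝 0) := by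
  have hc : covers gwBoxes (39/10) 9 = true := by decide +kernel
  have hl0 : l < 0 := by linarith
  have h9 : d ≤ 9 := by nlinarith
  rcases le_or_gt d 4 with h | h
  · exact aGW_tendsto_of_box le_rfl h0 hl0.le hd0.le h
      (gw_chain _ _ _ hc hp (by norm_num) (by norm_num) (by norm_num) le_rfl (by norm_num)
        (by norm_num))
  · exact aGW_tendsto hd0.le h0 (by linarith)
      (gw_chain _ _ _ hc hp hd0 (by push_cast; linarith) (by push_cast; linarith) h0 hl0 hq)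

/-- The three-state theorem from its pieces. -/
theorem threeState_of (hP : PotRange) (hR : ∀ b ∈ regBoxes, RegLim b.1 (b.2 : ℝ))
    (hG : GWPieces gwBoxes (39/10)) : ThreeState := by
  refine ⟨fun d hd l hl => ⟨fun hq => ?_, reg_reconstruction hl.1 hl.2⟩,
    fun d hd l hl => ⟨fun hq => ?_, gw_reconstruction hd hl.1 hl.2⟩⟩
  · rcases le_or_gt 0 l with h | h
    · exact P154.reg_nonreconstruction h hl.2 hd hq
    rcases le_or_gt (-1 / 3) l with h' | h'
    · obtain ⟨f, hf⟩ := hP l ⟨h', h.le⟩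
      exact reg_tendsto_of_pot hl.1 hl.2 hf hq
    · exact reg_window hR hl.1 h' hq
  · rcases le_or_gt 0 l with h | h
    · exact P154.gw_nonreconstruction hd h hl.2 hq
    rcases le_or_gt (-1 / 3) l with h' | h'
    · obtain ⟨f, hf⟩ := hP l ⟨h', h.le⟩
      exact gw_tendsto_of_pot hl.1 hl.2 hf hd hq
    · exact gw_window hG hd hl.1 h' hq

end Vale.Agent.P154.Neg
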