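import Vale.Agent.P154.Neg.Assemble
import Vale.Agent.P154.Q.Threshold
import Vale.Agent.P154.Q.Edge
import Vale.Agent.P154.Four.Pair
import Vale.Agent.P154.Neg.Large.Main

/-!
# P154: both halves of the question, from the three-state boxes

`Threshold` is the statement for both numbers of states; `threshold_of_boxes` reduces it to the
regular and Poisson boxes of the three-state assembly.
-/

namespace Vale.Agent.P154.Neg

open Filter Topology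

/-- The answer for three states at every admissible `λ` and four states at every `λ ≥ 0`, on both
tree models and for every `d`. -/
def Threshold : Prop :=
  (∀ d : ℕ, 2 ≤ d → ∀ l ∈ Set.Icc (-1 / 2 : ℝ) 1,
    (Tendsto (aReg l d) atTop (𝓝 0) ↔ (d : ℝ) * l ^ 2 ≤ 1) ∧
    (1 < (d : ℝ) * l ^ 2 → ∃ c > 0, ∀ n, c ≤ aReg l d n)) ∧
  (∀ d : ℝ, 0 < d → ∀ l ∈ Set.Icc (-1 / 2 : ℝ) 1,
    (Tendsto (aGW l d) atTop (𝓝 0) ↔ d * l ^ 2 ≤ 1) ∧
    (1 < d * l ^ 2 → ∃ c > 0, ∀ n, c ≤ aGW l d n)) ∧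
  (∀ d : ℕ, 2 ≤ d → ∀ l ∈ Set.Icc (0 : ℝ) 1,
    (Tendsto (Q.aReg 4 l d) atTop (𝓝 0) ↔ (d : ℝ) * l ^ 2 ≤ 1) ∧
    (1 < (d : ℝ) * l ^ 2 → ∃ c > 0, ∀ n, c ≤ Q.aReg 4 l d n)) ∧
  (∀ d : ℝ, 0 < d → ∀ l ∈ Set.Icc (0 : ℝ) 1,
    (Tendsto (Q.aGW 4 l d) atTop (𝓝 0) ↔ d * l ^ 2 ≤ 1) ∧
    (1 < d * l ^ 2 → ∃ c > 0, ∀ n, c ≤ Q.aGW 4 l d n))

/-- Two one-sided statements give the equivalence. -/
lemma iff_and {a : ℕ → ℝ} {x : ℝ}
    (h : (x ≤ 1 → Tendsto a atTop (𝓝 0)) ∧ (1 < x → ∃ c > 0, ∀ n, c ≤ a n)) :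
    (Tendsto a atTop (𝓝 0) ↔ x ≤ 1) ∧ (1 < x → ∃ c > 0, ∀ n, c ≤ a n) := by
  refine ⟨⟨fun ht => ?_, h.1⟩, h.2⟩
  by_contra hx
  obtain ⟨c, hc, hb⟩ := h.2 (not_le.1 hx)
  exact absurd (ge_of_tendsto' ht hb) (not_le.2 hc)

/-- The potential of the landed large-degree theorem covers `[-1/3, 0]`. -/
theorem potRange : PotRange := fun _ hl => ⟨_, Large.potCert Large.key hl.1 hl.2⟩

/-- The whole question from the boxes. -/
theorem threshold_of_boxes (hR : ∀ b ∈ regBoxes, RegLim b.1 (b.2 : ℝ))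
    (hG : GWPieces gwBoxes (39/10)) : Threshold := by
  have h3 := threeState_of potRange hR hG
  have h4 := Q.threshold_of_cert (q := 4) (by norm_num) (Q.edgeCert (by norm_num) (by norm_num))
    Four.pairCert_four
  exact ⟨fun d hd l hl => iff_and (h3.1 d hd l hl), fun d hd l hl => iff_and (h3.2 d hd l hl),
    fun d hd l hl => iff_and (h4.1 d hd l hl), fun d hd l hl => iff_and (h4.2.1 d hd l hl)⟩

end Vale.Agent.P154.Neg
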