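import Vale.Agent.P154.Neg.CondBox
import Vale.Agent.P154.Neg.Small.Moments

/-!
# P154: from runs to the averaged bounds of the boxes

`MDom` is domination of a root with a Poisson number of children at any mean; means add under products
(semigroup), and sampling the mean at `K` equally spaced points bounds `avP`.
-/

namespace Vale.Agent.P154.Neg

open Finset Filter Topology ENNReal

variable {l d : ℝ} {n : ℕ} {ι κ μ : Type} [Fintype ι] [Fintype κ] [Fintype μ]
variable {w : ι → ℝ} {v : ι → Fin 3 → ℝ} {u : κ → ℝ} {z : κ → Fin 3 → ℝ}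

/-- Domination of a root with a Poisson number of mean `t` of children, each a depth-`n` tree of
mean `d`. -/
def MDom (l d : ℝ) (n : ℕ) (t : ℝ) (w : ι → ℝ) (v : ι → Fin 3 → ℝ) : Prop :=
  ∀ f, Adm f → ∑' k, pw t k * lev (wgt d n) k (fun r => ENNReal.ofReal (tot l f r (n + 1)))
    ≤ ENNReal.ofReal (ev w v f)

lemma MDom.upg {t : ℝ} (h : MDom l d n t w v) (h' : Upg w v u z) : MDom l d n t u z :=
  fun f hf => (h f hf).trans (ENNReal.ofReal_le_ofReal (h' f hf))

/-- A level of the tree is the mixture at its own mean. -/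
theorem ldom_succ_of_mdom {t : ℝ} (hd : 0 ≤ d) (ht : d ≤ t) (h0 : -1 / 2 ≤ l) (h1 : l ≤ 1)
    (h : MDom l d n t w v) : LDom l d (n + 1) w v := by
  intro f hf
  rw [Ex_succ hd]
  refine le_trans ?_ (h f hf)
  have := tsum_pw_mono hd (sub_nonneg.2 ht) (monotone_nat_of_le_succ fun k =>
    lev_le_succ (tsum_wgt hd n) k
      (F := fun r => ENNReal.ofReal (tot l f r (n + 1))) fun c r =>
        ENNReal.ofReal_le_ofReal (tot_le_cons h0 h1 hf c r n))
  rwa [add_sub_cancel] at this

/-- A truncated series: underestimate the weights on a finite set, the rest is the certain atom. -/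
theorem mdom_series {t : ℝ} (ht : 0 ≤ t) (hd : 0 ≤ d) (h0 : -1 / 2 ≤ l) (h1 : l ≤ 1)
    (s : Finset ℕ) (q : ℕ → ℝ) (hq0 : ∀ k ∈ s, 0 ≤ q k)
    (hq : ∀ k ∈ s, q k ≤ Real.exp (-t) * t ^ k / k.factorial)
    {W : ℕ → ι → ℝ} (hW : ∀ k ∈ s, ∀ a, 0 ≤ W k a) (hv : ∀ a i, 0 ≤ v a i)
    (hk : ∀ k ∈ s, KDom l d n k (W k) v) {s' : μ → ℝ} {y : μ → Fin 3 → ℝ}
    (hout : ∀ f, Adm f → ∑ k ∈ s, q k * ev (W k) v f + (1 - ∑ k ∈ s, q k) * (3 * sym6 f (single 0))
      ≤ ev s' y f) :
    MDom l d n t s' y := by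
  intro f hf
  set a : ℕ → ℝ≥0∞ := fun k => lev (wgt d n) k (fun r => ENNReal.ofReal (tot l f r (n + 1)))
  have hw := tsum_wgt hd n
  set T := ENNReal.ofReal (3 * sym6 f (single 0))
  have htop : ∀ k, a k ≤ T := fun k => by
    refine (lev_mono _ k fun r => ENNReal.ofReal_le_ofReal (tot_le_top h0 h1 hf r (n + 1))).trans
      (le_of_eq ?_)
    have := lev_mul (wgt d n) (fun _ => 1) k T
    simp only [mul_one, lev_one _ hw] at this
    exact this
  set Q : ℕ → ℝ≥0∞ := fun k => if k ∈ s then ENNReal.ofReal (q k) else 0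
  have hQ : ∀ k, Q k ≤ pw t k := fun k => by
    simp only [Q]; split_ifs with h
    · exact ENNReal.ofReal_le_ofReal (hq k h)
    · exact bot_le
  have hQs : ∑' k, Q k = ENNReal.ofReal (∑ k ∈ s, q k) := by
    rw [tsum_eq_sum (s := s) fun k hk => by simp [Q, hk], ENNReal.ofReal_sum_of_nonneg hq0]
    exact Finset.sum_congr rfl fun k hk => by simp [Q, hk]
  have hrest : ∑' k, (pw t k - Q k) = ENNReal.ofReal (1 - ∑ k ∈ s, q k) := by
    have h := ENNReal.tsum_sub (f := fun k => pw t k) (g := Q)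
      (by rw [hQs]; exact ENNReal.ofReal_ne_top) hQ
    rw [h, tsum_pw ht, hQs, ← ENNReal.ofReal_one, ← ENNReal.ofReal_sub _ (Finset.sum_nonneg hq0)]
  calc ∑' k, pw t k * a k = ∑' k, (Q k * a k + (pw t k - Q k) * a k) :=
        tsum_congr fun k => by rw [← add_mul, add_tsub_cancel_of_le (hQ k)]
    _ = ∑' k, Q k * a k + ∑' k, (pw t k - Q k) * a k := ENNReal.tsum_add
    _ ≤ ∑ k ∈ s, ENNReal.ofReal (q k * ev (W k) v f) + ∑' k, (pw t k - Q k) * T := by
        refine add_le_add ?_ (ENNReal.tsum_le_tsum fun k => mul_le_mul_right (htop k) _)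
        rw [tsum_eq_sum (s := s) fun k hk => by simp [Q, hk]]
        refine Finset.sum_le_sum fun k hk' => ?_
        simp only [Q, if_pos hk']
        rw [ENNReal.ofReal_mul (hq0 k hk')]
        exact mul_le_mul_right (hk k hk' f hf) _
    _ ≤ ENNReal.ofReal (ev s' y f) := by
        have hsum : ∑ k ∈ s, q k ≤ 1 := by
          have h1 : ENNReal.ofReal (∑ k ∈ s, q k) ≤ ENNReal.ofReal 1 := by
            rw [← hQs, ENNReal.ofReal_one, ← tsum_pw ht]; exact ENNReal.tsum_le_tsum hQ
          exact (ENNReal.ofReal_le_ofReal_iff zero_le_one).1 h1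
        have hn : ∀ k ∈ s, 0 ≤ q k * ev (W k) v f := fun k hk =>
          mul_nonneg (hq0 k hk) (ev_nonneg hf (hW k hk) hv)
        rw [ENNReal.tsum_mul_right, hrest, ← ENNReal.ofReal_sum_of_nonneg hn,
          ← ENNReal.ofReal_mul (by linarith), ← ENNReal.ofReal_add (Finset.sum_nonneg hn)
            (mul_nonneg (by linarith) (mul_nonneg (by norm_num)
              (sym6_nonneg hf (single_nonneg 0))))]
        exact ENNReal.ofReal_le_ofReal (hout f hf)

/-- Poisson weights convolve. -/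
lemma tsum_pw_conv {a h : ℝ} (ha : 0 ≤ a) (hh : 0 ≤ h) (F : ℕ → ℝ≥0∞) :
    ∑' i, pw a i * ∑' j, pw h j * F (i + j) = ∑' m, pw (a + h) m * F m := by
  rcases (add_nonneg ha hh).eq_or_lt with h0 | h0
  · have e1 : a = 0 := by linarith
    have e2 : h = 0 := by linarith
    subst e1 e2
    rw [add_zero, tsum_eq_single 0 fun j hj => by simp [pw, zero_pow hj],
      tsum_eq_single 0 fun j hj => by simp [pw, zero_pow hj],
      tsum_eq_single 0 fun j hj => by simp [pw, zero_pow hj]]
    simp [pw]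
  · have hs0 : 0 ≤ a / (a + h) := div_nonneg ha h0.le
    have hs1 : a / (a + h) ≤ 1 := (div_le_one h0).2 (by linarith)
    have ea : (a + h) * (a / (a + h)) = a := mul_div_cancel₀ _ h0.ne'
    symm
    calc ∑' m, pw (a + h) m * F m
        = ∑' m, pw (a + h) m * ((∑' i, bw (a / (a + h)) m i) * F m) := by
          refine tsum_congr fun m => ?_
          have := thin_const hs0 hs1 1 m
          simp only [thin, mul_one] at this
          rw [this, one_mul]
      _ = ∑' i, ∑' m, pw (a + h) m * bw (a / (a + h)) m i * F m := by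
          simp only [← ENNReal.tsum_mul_right, ← ENNReal.tsum_mul_left, ← mul_assoc]
          exact ENNReal.tsum_comm
      _ = ∑' i, pw a i * ∑' j, pw h j * F (i + j) := by
          refine tsum_congr fun i => ?_
          have hz : (Function.support fun m => pw (a + h) m * bw (a / (a + h)) m i * F m)
              ⊆ Set.range (fun j => j + i) := by
            intro m hm
            by_contra hc
            have : m < i := by
              by_contra h'
              exact hc ⟨m - i, by simp; omega⟩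
            simp [bw, Nat.choose_eq_zero_of_lt this] at hm
          rw [← (add_left_injective i).tsum_eq hz, ← ENNReal.tsum_mul_left]
          refine tsum_congr fun j => ?_
          rw [← mul_assoc, add_comm i j]
          congr 1
          rw [bw, pw, pw, pw, ← ENNReal.ofReal_mul (by positivity),
            ← ENNReal.ofReal_mul (by positivity), Nat.add_sub_cancel]
          congr 1
          have hc : ((j + i).choose i : ℝ) * i.factorial * j.factorial = (j + i).factorial := by
            exact_mod_cast (by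
              rw [mul_right_comm]; exact Nat.add_choose_mul_factorial_mul_factorial j i :
              (j + i).choose i * i.factorial * j.factorial = (j + i).factorial)
          have hC : ((j + i).choose i : ℝ) ≠ 0 :=
            Nat.cast_ne_zero.2 (Nat.choose_pos (Nat.le_add_left i j)).ne'
          rw [show (1 : ℝ) - a / (a + h) = h / (a + h) by field_simp; ring,
            show -(a + h) = -a + -h by ring, Real.exp_add, ← hc, div_pow, div_pow, pow_add]
          field_simp

/-- Means add. -/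
theorem mdom_add (h0 : -1 / 2 ≤ l) (h1 : l ≤ 1) {t1 t2 : ℝ} (ht1 : 0 ≤ t1) (ht2 : 0 ≤ t2)
    (ha : MDom l d n t1 w v) (hb : MDom l d n t2 u z) (hu : ∀ b, 0 ≤ u b) (hz : ∀ b i, 0 ≤ z b i) :
    MDom l d n (t1 + t2) (prodW w u) (prodV v z) := by
  intro f hf
  rw [← tsum_pw_conv ht1 ht2, ← ev_prodW]
  have hG : Adm (fun x => ev u z (fun y => f (fun i => x i * y i))) :=
    adm_ev (g := fun x y => f (fun i => x i * y i)) hu (fun y hy => hf.comp_mul hy) hz
  refine le_trans (ENNReal.tsum_le_tsum fun i => mul_le_mul_right ?_ _) (ha _ hG)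
  simp only [lev_join]
  simp only [lev, ← ENNReal.tsum_mul_left]
  rw [ENNReal.tsum_comm]
  refine ENNReal.tsum_le_tsum fun a => ?_
  split_ifs
  · simp only [mul_left_comm (pw t2 _) (kp (wgt d n) a), ENNReal.tsum_mul_left]
    refine mul_le_mul_right ?_ _
    have hn := (good_lik h0 h1 a (n + 1)).nonneg
    have e : ∀ b, ENNReal.ofReal (tot l f (join a b) (n + 1)) = ∑ o,
        ENNReal.ofReal (tot l (fun y => f (fun i => lik l a (n + 1) o i * y i)) b (n + 1)) := by
      intro b
      rw [tot_join]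
      exact ENNReal.ofReal_sum_of_nonneg fun o _ => tot_nonneg h0 h1 (hf.mul_left (hn o)) b _
    refine le_trans (le_of_eq ?_) (le_trans (Finset.sum_le_sum (s := univ)
      fun o _ => hb _ (hf.mul_left (hn o))) (le_of_eq ?_))
    · rw [← Summable.tsum_finsetSum fun _ _ => ENNReal.summable]
      refine tsum_congr fun j => ?_
      rw [← Finset.mul_sum, ← lev_sum]
      simp only [e]
      rfl
    · exact (ENNReal.ofReal_sum_of_nonneg fun o _ => ev_nonneg (hf.mul_left (hn o)) hu hz).symm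
  · simp

/-- A larger mean raises the sum over children by at most the mean times the value. -/
lemma tsum_sums_step {a h : ℝ} (ha : 0 ≤ a) (hh : 0 ≤ h) {L : ℕ → ℝ≥0∞} (hL : Monotone L) :
    ∑' k, pw (a + h) k * ∑ j ∈ Finset.range k, L j
      ≤ ∑' k, pw a k * ∑ j ∈ Finset.range k, L j + ENNReal.ofReal h * ∑' k, pw (a + h) k * L k := by
  rw [← tsum_pw_conv ha hh, ← tsum_pw_conv ha hh, ← ENNReal.tsum_mul_left, ← ENNReal.tsum_add]
  refine ENNReal.tsum_le_tsum fun i => ?_
  rw [mul_left_comm (ENNReal.ofReal h), ← mul_add]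
  refine mul_le_mul_right ?_ _
  calc ∑' j, pw h j * ∑ m ∈ Finset.range (i + j), L m
      ≤ ∑' j, (pw h j * ∑ m ∈ Finset.range i, L m + pw h j * (j * L (i + j - 1))) := by
        refine ENNReal.tsum_le_tsum fun j => ?_
        rw [← mul_add, Finset.sum_range_add]
        refine mul_le_mul_right (add_le_add_right ?_ _) _
        refine (Finset.sum_le_sum (g := fun _ => L (i + j - 1)) fun m hm => hL ?_).trans
          (le_of_eq (by simp))
        have := Finset.mem_range.1 hm
        omega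
    _ = _ := by
        rw [ENNReal.tsum_add, ENNReal.tsum_mul_right, tsum_pw hh, one_mul]
        congr 1
        rw [tsum_eq_zero_add' ENNReal.summable, ← ENNReal.tsum_mul_left]
        simp only [Nat.cast_zero, zero_mul, mul_zero, zero_add, ← mul_assoc, pw_succ hh]
        exact tsum_congr fun j => by rw [← Nat.add_assoc, Nat.add_sub_cancel]

/-- Sampling the mean at `K` points bounds the average over the children. -/
theorem avP_le_steps {h : (Fin 3 → ℝ) → ℝ} (hh : Adm h) {D : ℝ} (hD : 0 ≤ D) (h0 : -1 / 2 ≤ l) (h1 : l ≤ 1) {K : ℕ} (hK : 0 < K)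
    {b : ℕ → ℝ≥0∞} (hb : ∀ i < K, ∑' k, pw (D * (i + 1) / K) k
      * lev (wgt D n) k (fun r => ENNReal.ofReal (tot l h r (n + 1))) ≤ b i) :
    avP l h D n ≤ ENNReal.ofReal (D / K) * ∑ i ∈ Finset.range K, b i := by
  set L : ℕ → ℝ≥0∞ := fun j => lev (wgt D n) j (fun r => ENNReal.ofReal (tot l h r (n + 1)))
  have hmono : Monotone L := monotone_nat_of_le_succ fun k =>
    lev_le_succ (tsum_wgt hD n) k fun c r => ENNReal.ofReal_le_ofReal (tot_le_cons h0 h1 hh c r n)
  have key : ∀ m ≤ K, ∑' k, pw (D * m / K) k * ∑ j ∈ Finset.range k, L j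
      ≤ ENNReal.ofReal (D / K) * ∑ i ∈ Finset.range m, b i := by
    intro m hm
    induction m with
    | zero =>
      rw [tsum_eq_single 0 fun j hj => by simp [pw, zero_pow hj]]
      simp
    | succ m ih =>
      have e : D * ((m + 1 : ℕ) : ℝ) / K = D * m / K + D / K := by push_cast; ring
      rw [e, Finset.sum_range_succ, mul_add]
      refine (tsum_sums_step (by positivity) (by positivity) hmono).trans
        (add_le_add (ih (by omega)) (mul_le_mul_right ?_ _))
      rw [← e, Nat.cast_succ]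
      exact hb m hm
  have := key K le_rfl
  rwa [mul_div_cancel_right₀ D (Nat.cast_ne_zero.2 hK.ne')] at this

/-- A run, plus `K` products at its last level, gives the averaged bound of a Poisson box. -/
theorem avP_eventually {g : (Fin 3 → ℝ) → ℝ} (hg : Adm g) {D x0 : ℝ} (hD : 0 ≤ D) (h0 : -1 / 2 ≤ l) (h1 : l ≤ 1) {N K : ℕ}
    (hK : 0 < K) (h : LDom l D N w v) {V : κ → Fin 3 → ℝ} {W : ℕ → κ → ℝ}
    (hW : ∀ i < K, ∀ a, 0 ≤ W i a) (hV : ∀ a i, 0 ≤ V a i)
    (hstep : ∀ n, LDom l D n w v → ∀ i < K, MDom l D n (D * (i + 1) / K) (W i) V)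
    (hx : ∑ i ∈ Finset.range K, ev (W i) V g ≤ K * x0) :
    ∀ᶠ n in atTop, avP l g D n ≤ ENNReal.ofReal (D * x0) := by
  refine eventually_atTop.2 ⟨N, fun n hn => ?_⟩
  refine (avP_le_steps hg (b := fun i => ENNReal.ofReal (ev (W i) V g)) hD h0 h1 hK fun i hi => ?_).trans
    ?_
  · have := hstep n (ldom_ge hD h0 h1 h hn) i hi g hg
    exact this
  · rw [← ENNReal.ofReal_sum_of_nonneg fun i hi =>
      ev_nonneg hg (hW i (Finset.mem_range.1 hi)) hV, ← ENNReal.ofReal_mul (by positivity)]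
    refine ENNReal.ofReal_le_ofReal ((mul_le_mul_of_nonneg_left hx (by positivity)).trans
      (le_of_eq ?_))
    have : (K : ℝ) ≠ 0 := Nat.cast_ne_zero.2 hK.ne'
    field_simp

/-- A root with more children dominates, so one family may serve several counts. -/
theorem kdom_le (hd : 0 ≤ d) (h0 : -1 / 2 ≤ l) (h1 : l ≤ 1) {k k' : ℕ} (hk : k ≤ k')
    (h : KDom l d n k' w v) : KDom l d n k w v := fun f hf =>
  le_trans ((monotone_nat_of_le_succ fun k => lev_le_succ (tsum_wgt hd n) k
    (F := fun r => ENNReal.ofReal (tot l f r (n + 1))) fun c r =>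
      ENNReal.ofReal_le_ofReal (tot_le_cons h0 h1 hf c r n)) hk) (h f hf)

/-- Lower bounds on the tails of the Poisson law and bounds for few children bound `avP`. -/
theorem avP_le_tail {h : (Fin 3 → ℝ) → ℝ} (hh : Adm h)
    (htop : 3 * sym6 h (single 0) ≤ 1) {D : ℝ} (hD : 0 ≤ D) (h0 : -1 / 2 ≤ l) (h1 : l ≤ 1) {J : ℕ} {P b : ℕ → ℝ}
    (hP0 : ∀ j < J, 0 ≤ P j)
    (hP : ∀ j < J, ENNReal.ofReal (P j) ≤ ∑' k, if j < k then pw D k else 0)
    (hb0 : ∀ j < J, 0 ≤ b j) (hb1 : ∀ j < J, b j ≤ 1)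
    (hb : ∀ j < J, lev (wgt D n) j (fun r => ENNReal.ofReal (tot l h r (n + 1)))
      ≤ ENNReal.ofReal (b j)) :
    avP l h D n ≤ ENNReal.ofReal (D - ∑ j ∈ Finset.range J, P j * (1 - b j)) := by
  set L : ℕ → ℝ≥0∞ := fun j => lev (wgt D n) j (fun r => ENNReal.ofReal (tot l h r (n + 1)))
  set T : ℕ → ℝ≥0∞ := fun j => ∑' k, if j < k then pw D k else 0
  have swap : ∀ F : ℕ → ℝ≥0∞, ∑' k, pw D k * ∑ j ∈ Finset.range k, F j = ∑' j, T j * F j := by
    intro F
    simp only [T, ← ENNReal.tsum_mul_right]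
    rw [ENNReal.tsum_comm]
    refine tsum_congr fun k => ?_
    rw [tsum_eq_sum (s := Finset.range k) fun j hj => by
      rw [if_neg (by simpa using hj), zero_mul], Finset.mul_sum]
    exact Finset.sum_congr rfl fun j hj => by rw [if_pos (Finset.mem_range.1 hj)]
  have hT : ∑' j, T j = ENNReal.ofReal D := by
    have := swap fun _ => 1
    simp only [mul_one, Finset.sum_const, Finset.card_range, nsmul_eq_mul] at this
    rw [← this, tsum_pw_mul hD]
  have hL1 : ∀ j, L j ≤ 1 := fun j => by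
    refine (lev_mono _ j fun r => ?_).trans (lev_one _ (tsum_wgt hD n) j).le
    exact ENNReal.ofReal_le_one.2 ((tot_le_top h0 h1 hh r (n + 1)).trans htop)
  set c : ℕ → ℝ≥0∞ := fun j => if j < J then ENNReal.ofReal (P j * (1 - b j)) else 0
  have hc : ∑' j, c j = ENNReal.ofReal (∑ j ∈ Finset.range J, P j * (1 - b j)) := by
    rw [tsum_eq_sum (s := Finset.range J) fun j hj => by
      simp only [c, if_neg (show ¬ j < J by simpa using hj)], ENNReal.ofReal_sum_of_nonneg fun j hj =>
      mul_nonneg (hP0 j (Finset.mem_range.1 hj)) (sub_nonneg.2 (hb1 j (Finset.mem_range.1 hj)))]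
    exact Finset.sum_congr rfl fun j hj => by simp [c, Finset.mem_range.1 hj]
  have key : ∑' j, (T j * L j + c j) ≤ ENNReal.ofReal D := by
    rw [← hT]
    refine ENNReal.tsum_le_tsum fun j => ?_
    by_cases hj : j < J
    · have h1b : 0 ≤ 1 - b j := sub_nonneg.2 (hb1 j hj)
      simp only [c, if_pos hj]
      rw [ENNReal.ofReal_mul (hP0 j hj)]
      calc T j * L j + ENNReal.ofReal (P j) * ENNReal.ofReal (1 - b j)
          ≤ T j * ENNReal.ofReal (b j) + T j * ENNReal.ofReal (1 - b j) :=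
            add_le_add (mul_le_mul_right (hb j hj) _) (mul_le_mul_left (hP j hj) _)
        _ = T j := by
            rw [← mul_add, ← ENNReal.ofReal_add (hb0 j hj) h1b, add_sub_cancel, ENNReal.ofReal_one,
              mul_one]
    · simp only [c, if_neg hj, add_zero]
      exact (mul_le_mul_right (hL1 j) _).trans (le_of_eq (mul_one _))
  rw [ENNReal.tsum_add, ← swap L, hc] at key
  rw [ENNReal.ofReal_sub _ (Finset.sum_nonneg fun j hj => mul_nonneg
    (hP0 j (Finset.mem_range.1 hj)) (sub_nonneg.2 (hb1 j (Finset.mem_range.1 hj))))]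
  exact ENNReal.le_sub_of_add_le_right ENNReal.ofReal_ne_top key

/-- Tail lower bounds from lower bounds of the weights. -/
lemma tail_ge {D : ℝ} {q : ℕ → ℝ} {j K : ℕ} (hq0 : ∀ k < K, 0 ≤ q k)
    (hq : ∀ k < K, q k ≤ Real.exp (-D) * D ^ k / k.factorial) :
    ENNReal.ofReal (∑ k ∈ Finset.Ico (j + 1) K, q k) ≤ ∑' k, if j < k then pw D k else 0 := by
  rw [ENNReal.ofReal_sum_of_nonneg fun k hk => hq0 k (Finset.mem_Ico.1 hk).2]
  refine le_trans (Finset.sum_le_sum fun k hk => ?_) (ENNReal.sum_le_tsum _)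
  rw [if_pos (Nat.lt_of_succ_le (Finset.mem_Ico.1 hk).1)]
  exact ENNReal.ofReal_le_ofReal (hq k (Finset.mem_Ico.1 hk).2)

/-- The tail form at every depth after a run. -/
theorem avP_eventually_tail {g : (Fin 3 → ℝ) → ℝ} (hg : Adm g)
    (htop : 3 * sym6 g (single 0) ≤ 1) {D x0 : ℝ} (hD : 0 ≤ D) (h0 : -1 / 2 ≤ l) (h1 : l ≤ 1) {N J : ℕ}
    (h : LDom l D N w v) {V : κ → Fin 3 → ℝ} {W : ℕ → κ → ℝ} {P : ℕ → ℝ}
    (hW : ∀ j < J, ∀ a, 0 ≤ W j a) (hV : ∀ a i, 0 ≤ V a i) (hP0 : ∀ j < J, 0 ≤ P j)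
    (hP : ∀ j < J, ENNReal.ofReal (P j) ≤ ∑' k, if j < k then pw D k else 0)
    (hb1 : ∀ j < J, ev (W j) V g ≤ 1)
    (hstep : ∀ n, LDom l D n w v → ∀ j < J, KDom l D n j (W j) V)
    (hx : D - ∑ j ∈ Finset.range J, P j * (1 - ev (W j) V g) ≤ D * x0) :
    ∀ᶠ n in atTop, avP l g D n ≤ ENNReal.ofReal (D * x0) := by
  refine eventually_atTop.2 ⟨N, fun n hn => (avP_le_tail hg htop hD h0 h1 hP0 hP
    (fun j hj => ev_nonneg hg (hW j hj) hV) hb1 fun j hj => ?_).trans
      (ENNReal.ofReal_le_ofReal hx)⟩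
  have := hstep n (ldom_ge hD h0 h1 h hn) j hj g hg
  exact this

/-- The second moment below a group of children dominated by a family. -/
theorem tX_le_of_dom (h0 : -1 / 2 ≤ l) (h1 : l ≤ 1) {t : Tree} {m : ℕ} (h : Dom (lik l t m) w v) :
    tX l t m ≤ ∑ a, w a * sX (v a) :=
  chX_le_of_dom (good_lik h0 h1 _ _) h

/-- A run, plus bounds for fewer children at its last level, gives the averaged bound of a regular
box. -/
theorem avT_eventually {g : (Fin 3 → ℝ) → ℝ} {x0 : ℝ} (h0 : -1 / 2 ≤ l) (h1 : l ≤ 1) {d N : ℕ}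
    (h : Dom (lik l (fullTree d N) N) w v) {b : ℕ → ℝ}
    (hb : ∀ j < d, ∀ c m, Dom (lik l c m) w v → tot l g ((Tree.cons c)^[j] .nil) (m + 1) ≤ b j)
    (hx : ∑ j ∈ Finset.range d, b j ≤ d * x0) : ∀ᶠ n in atTop, avT l g d n ≤ d * x0 :=
  eventually_atTop.2 ⟨N, fun n hn => (Finset.sum_le_sum fun j hj =>
    hb j (Finset.mem_range.1 hj) _ n (reg_dom_ge h0 h1 h hn)).trans hx⟩

/-- A root without children carries nothing. -/
lemma tX_nil (h0 : -1 / 2 ≤ l) (h1 : l ≤ 1) (m : ℕ) : tX l .nil (m + 1) = 0 := by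
  rw [← tot_sX h0 h1, tot_nil]
  simp [sX, q2, esy2, mass]
  norm_num

/-- The square of the normalised second moment as a functional of an atom. -/
noncomputable def sX2 : (Fin 3 → ℝ) → ℝ := mG (fun s => s ^ 2)

lemma adm_sX2 : Adm sX2 := adm_mG_pow 2

lemma sX2_le {x : Fin 3 → ℝ} (hx : ∀ i, 0 ≤ x i) : sX2 x ≤ sX x := by
  rw [sX2, mG, sX_eq_mass_mul hx]
  obtain ⟨a, b⟩ := sNorm_mem hx
  exact mul_le_mul_of_nonneg_left (by nlinarith) (div_nonneg (mass_nonneg hx) (by norm_num))

lemma sX2_top : 3 * sym6 sX2 (single 0) ≤ 1 := by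
  rw [sX2, sym6_mG, mG, sNorm, sX, q2, esy2, mass]
  simp [single]

end Vale.Agent.P154.Neg
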