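import Vale.Agent.P154.Neg.Assemble

/-!
# P154: a potential conditioned on a small moment

As `PotCert`, but the step may lose `(H - x0) G` where `H` is the total of an admissible functional
(the second moment, or the mean square of the normalised second moment) over the channel that the
child joins. It gives nonreconstruction once the average of `H` over the positions of a child is at
most `x0`; in particular, if `H` is below the second moment, once the root second moment is.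
-/

namespace Vale.Agent.P154.Neg

open Finset Filter Topology ENNReal

section

variable {ι : Type} [Fintype ι] [Nonempty ι]

/-- The value of finitely many channel functionals. -/
noncomputable def potS (f : ι → (Fin 3 → ℝ) → ℝ) {A : Type} [Fintype A] (L : A → Fin 3 → ℝ) : ℝ :=
  Finset.univ.sup' Finset.univ_nonempty fun k => ∑ o, f k (L o)

/-- Properties of functionals that force nonreconstruction from level `x0` on. -/
structure CondCert (l x0 : ℝ) (f : ι → (Fin 3 → ℝ) → ℝ) (g h : (Fin 3 → ℝ) → ℝ) : Prop where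
  adm : Adm h
  lower : ∃ c > 0, ∀ {A : Type} [Fintype A] (L : A → Fin 3 → ℝ), Good L → c * chX L ≤ potS f L
  upper : ∃ C : ℝ, ∀ {A : Type} [Fintype A] (L : A → Fin 3 → ℝ), Good L → potS f L ≤ C
  unit : potS f (A := PUnit) (fun _ _ => (1 : ℝ)) ≤ 0
  gnn : ∀ {A : Type} [Fintype A] (L : A → Fin 3 → ℝ), Good L → 0 ≤ ∑ o, g (L o)
  gle : ∃ C : ℝ, ∀ {A : Type} [Fintype A] (L : A → Fin 3 → ℝ), Good L → ∑ o, g (L o) ≤ C
  step : ∃ ε > 0, ∀ {A B : Type} [Fintype A] [Fintype B] (M : A → Fin 3 → ℝ) (L : B → Fin 3 → ℝ),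
    Good M → Good L →
      potS f (prodL (fun o => edge l (M o)) L) ≤ potS f L + l ^ 2 * (potS f M - ε * chX M ^ 2)
        + l ^ 2 * (∑ o, h (L o) - x0) * ∑ o, g (M o)

/-- Totals over the later siblings, weighted by the children. -/
noncomputable def mixed (l : ℝ) (h : (Fin 3 → ℝ) → ℝ) (n : ℕ) (G : Tree → ℝ) : Tree → ℝ
  | .nil => 0
  | .cons c r => G c * tot l h r (n + 1) + mixed l h n G r

/-- The same with nonnegative extended values. -/
noncomputable def mixE (X G : Tree → ℝ≥0∞) : Tree → ℝ≥0∞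
  | .nil => 0
  | .cons c r => G c * X r + mixE X G r

/-- Sum of the totals of roots with fewer than `d` children. -/
noncomputable def avT (l : ℝ) (h : (Fin 3 → ℝ) → ℝ) (d n : ℕ) : ℝ :=
  ∑ j ∈ Finset.range d, tot l h ((Tree.cons (fullTree d n))^[j] .nil) (n + 1)

/-- The expected sum over the children of the totals of the later siblings. -/
noncomputable def avP (l : ℝ) (h : (Fin 3 → ℝ) → ℝ) (d : ℝ) (n : ℕ) : ℝ≥0∞ :=
  ∑' k, pw d k * ∑ j ∈ Finset.range k,
    lev (wgt d n) j (fun t => ENNReal.ofReal (tot l h t (n + 1)))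

variable {l x0 : ℝ} {f : ι → (Fin 3 → ℝ) → ℝ} {g h : (Fin 3 → ℝ) → ℝ}

lemma mixed_nonneg (h0 : -1 / 2 ≤ l) (h1 : l ≤ 1) (hh : Adm h) (n : ℕ) {G : Tree → ℝ} (hG : ∀ t, 0 ≤ G t) :
    ∀ t, 0 ≤ mixed l h n G t
  | .nil => le_rfl
  | .cons c r => add_nonneg (mul_nonneg (hG c) (tot_nonneg h0 h1 hh r (n + 1)))
      (mixed_nonneg h0 h1 hh n hG r)

lemma ofReal_mixed (h0 : -1 / 2 ≤ l) (h1 : l ≤ 1) (hh : Adm h) (n : ℕ) {G : Tree → ℝ} (hG : ∀ t, 0 ≤ G t) :
    ∀ t, ENNReal.ofReal (mixed l h n G t)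
      = mixE (fun r => ENNReal.ofReal (tot l h r (n + 1))) (fun c => ENNReal.ofReal (G c)) t
  | .nil => by simp [mixed, mixE]
  | .cons c r => by
    have hX := tot_nonneg h0 h1 hh r (n + 1)
    rw [mixed, ENNReal.ofReal_add (mul_nonneg (hG c) hX) (mixed_nonneg h0 h1 hh n hG r),
      ENNReal.ofReal_mul (hG c), ofReal_mixed h0 h1 hh n hG r, mixE]

lemma mixed_iter (n : ℕ) (G : Tree → ℝ) (c : Tree) : ∀ k : ℕ,
    mixed l h n G ((Tree.cons c)^[k] .nil)
      = G c * ∑ j ∈ Finset.range k, tot l h ((Tree.cons c)^[j] .nil) (n + 1)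
  | 0 => by simp [mixed]
  | k + 1 => by
    rw [Function.iterate_succ_apply', mixed, mixed_iter n G c k, Finset.sum_range_succ]; ring

lemma lev_mixE (w X G : Tree → ℝ≥0∞) (hw : ∑' t, w t = 1) : ∀ k,
    lev w k (mixE X G) = (∑' t, w t * G t) * ∑ j ∈ Finset.range k, lev w j X
  | 0 => by simp [lev_zero, mixE]
  | k + 1 => by
    rw [lev_succ]
    simp only [mixE, lev_add, lev_mul, lev_mixE w X G hw k, mul_add, ENNReal.tsum_add,
      ← mul_assoc]
    rw [ENNReal.tsum_mul_right, ENNReal.tsum_mul_right, ENNReal.tsum_mul_right, hw, one_mul,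
      Finset.sum_range_succ, mul_add, add_comm]

/-- A root is worth at most the discounted children plus the weighted siblings. -/
lemma cond_succ_le (h0 : -1 / 2 ≤ l) (h1 : l ≤ 1) {ε : ℝ}
    (hu : potS f (A := PUnit) (fun _ _ => (1 : ℝ)) ≤ 0)
    (hstep : ∀ {A B : Type} [Fintype A] [Fintype B] (M : A → Fin 3 → ℝ) (L : B → Fin 3 → ℝ),
      Good M → Good L →
        potS f (prodL (fun o => edge l (M o)) L) ≤ potS f L + l ^ 2 * (potS f M - ε * chX M ^ 2)
          + l ^ 2 * (∑ o, h (L o) - x0) * ∑ o, g (M o))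
    (n : ℕ) : ∀ t : Tree, potS f (lik l t (n + 1))
        + kidsSum (fun c => l ^ 2 * ε * tX l c n ^ 2) t
        + kidsSum (fun c => x0 * (l ^ 2 * ∑ o, g (lik l c n o))) t
      ≤ kidsSum (fun c => l ^ 2 * potS f (lik l c n)) t
        + mixed l h n (fun c => l ^ 2 * ∑ o, g (lik l c n o)) t
  | .nil => by
    simp only [kidsSum, mixed, add_zero]
    exact hu
  | .cons c r => by
    have hs := hstep (lik l c n) (lik l r (n + 1)) (good_lik h0 h1 c n) (good_lik h0 h1 r (n + 1))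
    rw [← lik_cons] at hs
    have h' : potS f (lik l (.cons c r) (n + 1)) ≤ potS f (lik l r (n + 1))
        + l ^ 2 * (potS f (lik l c n) - ε * tX l c n ^ 2)
        + l ^ 2 * (tot l h r (n + 1) - x0) * ∑ o, g (lik l c n o) := hs
    have ih := cond_succ_le h0 h1 hu hstep n r
    simp only [kidsSum, mixed] at ih ⊢
    linarith

/-- A conditioned potential gives nonreconstruction on regular trees. -/
theorem reg_tendsto_of_cond (h0 : -1 / 2 ≤ l) (h1 : l ≤ 1) (hc' : CondCert l x0 f g h) {d : ℕ}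
    (hd : (d : ℝ) * l ^ 2 ≤ 1) (hav : ∀ᶠ n in atTop, avT l h d n ≤ d * x0) :
    Tendsto (fun n => tX l (fullTree d n) n) atTop (𝓝 0) := by
  obtain ⟨c, hc, hlow⟩ := hc'.lower
  obtain ⟨ε, hε, hstep⟩ := hc'.step
  obtain ⟨N, hN⟩ := eventually_atTop.1 hav
  rw [← tendsto_add_atTop_iff_nat N]
  refine pot_seq (z := fun n => potS f (lik l (fullTree d (n + N)) (n + N))) hc hε (by positivity)
    hd (fun n => (tX_mem h0 h1 _ _).1) (fun n => hlow _ (good_lik h0 h1 _ _)) (fun n => ?_)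
  have hk := cond_succ_le h0 h1 hc'.unit hstep (n + N) (fullTree d (n + N + 1))
  have e : fullTree d (n + N + 1) = (Tree.cons (fullTree d (n + N)))^[d] .nil := rfl
  rw [e, kidsSum_iter, kidsSum_iter, kidsSum_iter, mixed_iter, ← e] at hk
  have hG : 0 ≤ ∑ o, g (lik l (fullTree d (n + N)) (n + N) o) := hc'.gnn _ (good_lik h0 h1 _ _)
  have hm := mul_le_mul_of_nonneg_left (hN (n + N) (by omega)) (mul_nonneg (sq_nonneg l) hG)
  rw [avT] at hm
  rw [Nat.add_right_comm]
  linarith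

/-- The siblings average is at most the root total, on regular trees. -/
theorem avT_le (h0 : -1 / 2 ≤ l) (h1 : l ≤ 1) (hh : Adm h) (d n : ℕ) :
    avT l h d n ≤ d * tot l h (fullTree d (n + 1)) (n + 1) :=
  (Finset.sum_le_sum (g := fun _ => tot l h (fullTree d (n + 1)) (n + 1)) fun _ hj =>
    tot_iter_mono h0 h1 (fun _ => le_rfl) (Finset.mem_range.1 hj).le hh).trans (by simp)

/-- A functional below the second moment has a smaller total. -/
lemma tot_le_tX (h0 : -1 / 2 ≤ l) (h1 : l ≤ 1) (hle : ∀ x : Fin 3 → ℝ, (∀ i, 0 ≤ x i) → h x ≤ sX x)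
    (t : Tree) (n : ℕ) : tot l h t n ≤ tX l t n := by
  rw [← tot_sX h0 h1]
  exact Finset.sum_le_sum fun o _ => hle _ ((good_lik h0 h1 t n).nonneg o)

/-- A conditioned potential gives nonreconstruction on Poisson trees. -/
theorem gw_tendsto_of_cond (h0 : -1 / 2 ≤ l) (h1 : l ≤ 1) (hx0 : 0 ≤ x0) (hc' : CondCert l x0 f g h)
    {d : ℝ} (hd0 : 0 < d) (hd : d * l ^ 2 ≤ 1)
    (hav : ∀ᶠ n in atTop, avP l h d n ≤ ENNReal.ofReal (d * x0)) :
    Tendsto (mGW l d) atTop (𝓝 0) := by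
  obtain ⟨c, hc, hlow⟩ := hc'.lower
  obtain ⟨C, hup⟩ := hc'.upper
  obtain ⟨D, hgle⟩ := hc'.gle
  obtain ⟨ε, hε, hstep⟩ := hc'.step
  obtain ⟨N, hN⟩ := eventually_atTop.1 hav
  have hd' := hd0.le
  have hX := fun t n => tX_mem (l := l) h0 h1 t n
  set Z : Tree → ℕ → ℝ := fun t n => potS f (lik l t n)
  have hlow' : ∀ t n, c * tX l t n ≤ Z t n := fun t n => hlow _ (good_lik h0 h1 t n)
  have hZ0 : ∀ t n, 0 ≤ Z t n := fun t n => (mul_nonneg hc.le (hX t n).1).trans (hlow' t n)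
  have hsZ : ∀ n, Summable (fun t => gwProb d n t * Z t n) := fun n =>
    summable_bdd hd' n (fun t => hZ0 t n) (fun t => hup _ (good_lik h0 h1 t n))
  have hsX : ∀ n, Summable (fun t => gwProb d n t * tX l t n) := fun n =>
    summable_tX hd' h0 h1 n n
  have hs2 : ∀ n, Summable (fun t => gwProb d n t * tX l t n ^ 2) := fun n =>
    summable_bdd hd' n (fun t => sq_nonneg _) (fun t => pow_le_one₀ (hX t n).1 (hX t n).2)
  rw [← tendsto_add_atTop_iff_nat N]
  refine pot_seq (z := fun n => ∑' t, gwProb d (n + N) t * Z t (n + N)) hc hε (by positivity) hd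
    (fun n => tsum_nonneg fun t => mul_nonneg (gwProb_nonneg hd' _ t) (hX t _).1)
    (fun n => ?_) (fun n => ?_)
  · unfold mGW
    rw [← tsum_mul_left]
    exact Summable.tsum_le_tsum (fun t => by
      nlinarith [mul_le_mul_of_nonneg_left (hlow' t (n + N)) (gwProb_nonneg hd' (n + N) t)])
      ((hsX _).mul_left c) (hsZ _)
  · rw [Nat.add_right_comm]
    have hmk := hN (n + N) (by omega)
    generalize n + N = m at hmk ⊢
    set G : Tree → ℝ := fun t => l ^ 2 * ∑ o, g (lik l t m o)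
    have hG0 : ∀ t, 0 ≤ G t := fun t => mul_nonneg (sq_nonneg l) (hc'.gnn _ (good_lik h0 h1 t m))
    have hA : ∀ t, 0 ≤ l ^ 2 * ε * tX l t m ^ 2 := fun t => by positivity
    have hB : ∀ t, 0 ≤ x0 * G t := fun t => mul_nonneg hx0 (hG0 t)
    have hR : ∀ t, 0 ≤ l ^ 2 * Z t m := fun t => mul_nonneg (sq_nonneg l) (hZ0 t m)
    have hk := Ex_mono (d := d) (m + 1)
      (F := fun t => ENNReal.ofReal (Z t (m + 1))
        + kSum (fun c => ENNReal.ofReal (l ^ 2 * ε * tX l c m ^ 2)) t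
        + kSum (fun c => ENNReal.ofReal (x0 * G c)) t)
      (G := fun t => kSum (fun c => ENNReal.ofReal (l ^ 2 * Z c m)) t
        + mixE (fun r => ENNReal.ofReal (tot l h r (m + 1))) (fun c => ENNReal.ofReal (G c)) t)
      (fun t => by
        rw [← ofReal_kidsSum hA, ← ofReal_kidsSum hB, ← ofReal_kidsSum hR,
          ← ofReal_mixed h0 h1 hc'.adm m hG0,
          ← ENNReal.ofReal_add (hZ0 t _) (kidsSum_nonneg hA t),
          ← ENNReal.ofReal_add (add_nonneg (hZ0 t _) (kidsSum_nonneg hA t)) (kidsSum_nonneg hB t),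
          ← ENNReal.ofReal_add (kidsSum_nonneg hR t) (mixed_nonneg h0 h1 hc'.adm m hG0 t)]
        exact ENNReal.ofReal_le_ofReal (cond_succ_le h0 h1 hc'.unit hstep m t))
    have sG : Summable (fun t => gwProb d m t * G t) := by
      refine summable_bdd hd' m hG0 (B := l ^ 2 * D) fun t =>
        mul_le_mul_of_nonneg_left (hgle _ (good_lik h0 h1 t m)) (sq_nonneg l)
    have sA : Summable (fun t => gwProb d m t * (l ^ 2 * ε * tX l t m ^ 2)) := by
      simpa [mul_left_comm] using (hs2 m).mul_left (l ^ 2 * ε)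
    have sB : Summable (fun t => gwProb d m t * (x0 * G t)) := by
      simpa [mul_left_comm] using sG.mul_left x0
    have sR : Summable (fun t => gwProb d m t * (l ^ 2 * Z t m)) := by
      simpa [mul_left_comm] using (hsZ m).mul_left (l ^ 2)
    have eA : (∑' t, gwProb d m t * (l ^ 2 * ε * tX l t m ^ 2))
        = l ^ 2 * ε * ∑' t, gwProb d m t * tX l t m ^ 2 := by
      rw [← tsum_mul_left]; exact tsum_congr fun t => by ring
    have eB : (∑' t, gwProb d m t * (x0 * G t)) = x0 * ∑' t, gwProb d m t * G t := by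
      rw [← tsum_mul_left]; exact tsum_congr fun t => by ring
    have eR : (∑' t, gwProb d m t * (l ^ 2 * Z t m)) = l ^ 2 * ∑' t, gwProb d m t * Z t m := by
      rw [← tsum_mul_left]; exact tsum_congr fun t => by ring
    set zg := ∑' t, gwProb d m t * G t with hzg
    have n0 : 0 ≤ zg := tsum_nonneg fun t => mul_nonneg (gwProb_nonneg hd' _ t) (hG0 t)
    have n1 : 0 ≤ ∑' t, gwProb d (m + 1) t * Z t (m + 1) :=
      tsum_nonneg fun t => mul_nonneg (gwProb_nonneg hd' _ t) (hZ0 t _)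
    have n2 : 0 ≤ ∑' t, gwProb d m t * tX l t m ^ 2 :=
      tsum_nonneg fun t => mul_nonneg (gwProb_nonneg hd' _ t) (sq_nonneg _)
    have n3 : 0 ≤ ∑' t, gwProb d m t * Z t m :=
      tsum_nonneg fun t => mul_nonneg (gwProb_nonneg hd' _ t) (hZ0 t _)
    have hmix : Ex d (m + 1)
        (mixE (fun r => ENNReal.ofReal (tot l h r (m + 1))) fun c => ENNReal.ofReal (G c))
        ≤ ENNReal.ofReal (zg * (d * x0)) := by
      rw [Ex_succ hd']
      simp only [lev_mixE _ _ _ (tsum_wgt hd' m), mul_left_comm (pw d _)]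
      rw [ENNReal.tsum_mul_left, show (∑' t, wgt d m t * ENNReal.ofReal (G t))
        = ENNReal.ofReal zg from Ex_ofReal hd' _ hG0 sG, ENNReal.ofReal_mul n0]
      exact mul_le_mul_right hmk _
    rw [Ex_add, Ex_add, Ex_add, Ex_kSum hd', Ex_kSum hd', Ex_kSum hd',
      Ex_ofReal hd' _ (fun t => hZ0 t _) (hsZ (m + 1)), Ex_ofReal hd' _ hA sA,
      Ex_ofReal hd' _ hB sB, Ex_ofReal hd' _ hR sR, eA, eB, eR] at hk
    have hk' := hk.trans (add_le_add_right hmix _)
    rw [← ENNReal.ofReal_mul hd', ← ENNReal.ofReal_mul hd', ← ENNReal.ofReal_mul hd',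
      ← ENNReal.ofReal_add n1 (by positivity), ← ENNReal.ofReal_add (by positivity) (by positivity),
      ← ENNReal.ofReal_add (by positivity) (by positivity),
      ENNReal.ofReal_le_ofReal_iff (by positivity)] at hk'
    have hsq : mGW l d m ^ 2 ≤ ∑' t, gwProb d m t * tX l t m ^ 2 := by
      set a := mGW l d m with ha
      have hh : (∑' t, (2 * a * (gwProb d m t * tX l t m) - a ^ 2 * gwProb d m t))
          ≤ ∑' t, gwProb d m t * tX l t m ^ 2 :=
        Summable.tsum_le_tsum (fun t => by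
          nlinarith [mul_nonneg (gwProb_nonneg hd' m t) (sq_nonneg (tX l t m - a))])
          (((hsX m).mul_left _).sub ((summable_gw hd' m).mul_left _)) (hs2 m)
      rw [Summable.tsum_sub ((hsX m).mul_left _) ((summable_gw hd' m).mul_left _), tsum_mul_left,
        tsum_mul_left, gw_total hd', show ∑' t, gwProb d m t * tX l t m = a from ha.symm] at hh
      nlinarith
    have := mul_le_mul_of_nonneg_left hsq (show 0 ≤ d * (l ^ 2 * ε) by positivity)
    linarith

/-- The siblings average is at most the root total, on Poisson trees. -/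
theorem avP_le {d : ℝ} (hd : 0 ≤ d) (h0 : -1 / 2 ≤ l) (h1 : l ≤ 1) (hh : Adm h) (n : ℕ) :
    avP l h d n ≤ ENNReal.ofReal d
      * Ex d (n + 1) (fun t => ENNReal.ofReal (tot l h t (n + 1))) := by
  set L : ℕ → ℝ≥0∞ := fun j => lev (wgt d n) j (fun t => ENNReal.ofReal (tot l h t (n + 1)))
  have hmono : Monotone L := monotone_nat_of_le_succ fun k =>
    lev_le_succ (tsum_wgt hd n) k fun c r =>
      ENNReal.ofReal_le_ofReal (tot_le_cons h0 h1 hh c r n)
  rw [Ex_succ hd, ← ENNReal.tsum_mul_left, avP, tsum_eq_zero_add' ENNReal.summable]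
  simp only [Finset.range_zero, Finset.sum_empty, mul_zero, zero_add]
  refine ENNReal.tsum_le_tsum fun k => ?_
  rw [← mul_assoc, ← pw_succ hd k, mul_assoc]
  refine mul_le_mul_right ?_ _
  refine (Finset.sum_le_sum (g := fun _ => L k) fun j hj =>
    hmono (Nat.lt_succ_iff.1 (Finset.mem_range.1 hj))).trans (le_of_eq ?_)
  simp [L]

end

/-- Conditioned potentials supply the small-moment hypothesis of the assembly, regular trees. -/
theorem smallReg_of_cond {ι : Type} [Fintype ι] [Nonempty ι] {d : ℕ} {L δ : ℝ} (hL : -1 / 2 ≤ L)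
    {h : (Fin 3 → ℝ) → ℝ} (hle : ∀ x : Fin 3 → ℝ, (∀ i, 0 ≤ x i) → h x ≤ sX x)
    (hc : ∀ l ∈ Set.Icc L 0, (d : ℝ) * l ^ 2 ≤ 1 →
      ∃ (f : ι → (Fin 3 → ℝ) → ℝ) (g : (Fin 3 → ℝ) → ℝ), CondCert l δ f g h) :
    SmallReg d L δ := by
  intro l hl hq hev
  obtain ⟨f, g, hc'⟩ := hc l hl hq
  have h0 : -1 / 2 ≤ l := hL.trans hl.1
  have h1 : l ≤ 1 := hl.2.trans zero_le_one
  refine reg_tendsto_of_cond h0 h1 hc' hq ?_
  obtain ⟨N, hN⟩ := eventually_atTop.1 hev
  exact eventually_atTop.2 ⟨N, fun n hn => (avT_le h0 h1 hc'.adm d n).trans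
    (mul_le_mul_of_nonneg_left ((tot_le_tX h0 h1 hle _ _).trans (hN (n + 1) (by omega)))
      (Nat.cast_nonneg d))⟩

/-- Conditioned potentials supply the small-moment hypothesis of the assembly, Poisson trees. -/
theorem smallGW_of_cond {ι : Type} [Fintype ι] [Nonempty ι] {a b L δ : ℝ} (ha : 0 ≤ a)
    (hL : -1 / 2 ≤ L) (hδ : 0 ≤ δ) {h : (Fin 3 → ℝ) → ℝ}
    (hle : ∀ x : Fin 3 → ℝ, (∀ i, 0 ≤ x i) → h x ≤ sX x)
    (hc : ∀ d ∈ Set.Ioc a b, ∀ l ∈ Set.Icc L 0, d * l ^ 2 ≤ 1 →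
      ∃ (f : ι → (Fin 3 → ℝ) → ℝ) (g : (Fin 3 → ℝ) → ℝ), CondCert l δ f g h) :
    SmallGW a b L δ := by
  intro d hd l hl hq hev
  obtain ⟨f, g, hc'⟩ := hc d hd l hl hq
  have h0 : -1 / 2 ≤ l := hL.trans hl.1
  have h1 : l ≤ 1 := hl.2.trans zero_le_one
  have hd0 : 0 < d := ha.trans_lt hd.1
  refine gw_tendsto_of_cond h0 h1 hδ hc' hd0 hq ?_
  obtain ⟨N, hN⟩ := eventually_atTop.1 hev
  refine eventually_atTop.2 ⟨N, fun n hn => (avP_le hd0.le h0 h1 hc'.adm n).trans ?_⟩
  rw [ENNReal.ofReal_mul hd0.le]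
  refine mul_le_mul_right (le_trans (Ex_mono _ fun t => ENNReal.ofReal_le_ofReal
    (tot_le_tX h0 h1 hle t (n + 1))) ?_) _
  rw [Ex_ofReal hd0.le _ (fun t => (tX_mem h0 h1 t _).1) (summable_tX hd0.le h0 h1 _ _)]
  exact ENNReal.ofReal_le_ofReal (hN (n + 1) (by omega))

end Vale.Agent.P154.Neg
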