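import Vale.Agent.P154.Neg.Cond

/-!
# P154: averaged boxes for conditioned potentials

A bound on the averaged second moment of the siblings at a run point `(D, L)` transfers to the whole
window of the box, so a conditioned potential settles the box.
-/

namespace Vale.Agent.P154.Neg

open Finset Filter Topology ENNReal

variable {s : ℝ}

lemma thin_const (hs0 : 0 ≤ s) (hs1 : s ≤ 1) (b : ℝ≥0∞) : ∀ k, thin s k (fun _ => b) = b
  | 0 => by rw [thin, tsum_eq_single 0 fun j hj => by simp [bw, Nat.choose_eq_zero_of_lt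
      (Nat.pos_of_ne_zero hj)]]; simp [bw]
  | k + 1 => by
    rw [thin_succ hs0 hs1, thin_const hs0 hs1 b k, ← add_mul,
      ← ENNReal.ofReal_add hs0 (sub_nonneg.2 hs1), add_sub_cancel, ENNReal.ofReal_one, one_mul]

lemma thin_mono {a b : ℕ → ℝ≥0∞} (h : ∀ j, a j ≤ b j) (k : ℕ) : thin s k a ≤ thin s k b :=
  ENNReal.tsum_le_tsum fun j => mul_le_mul_right (h j) _

lemma thin_le (hs0 : 0 ≤ s) (hs1 : s ≤ 1) : ∀ (k : ℕ) {a : ℕ → ℝ≥0∞}, Monotone a →
    thin s k a ≤ a k
  | 0, a, _ => by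
    rw [thin, tsum_eq_single 0 fun j hj => by simp [bw, Nat.choose_eq_zero_of_lt
      (Nat.pos_of_ne_zero hj)]]; simp [bw]
  | k + 1, a, ha => by
    rw [thin_succ hs0 hs1]
    calc ENNReal.ofReal s * thin s k (fun j => a (j + 1)) + ENNReal.ofReal (1 - s) * thin s k a
        ≤ ENNReal.ofReal s * a (k + 1) + ENNReal.ofReal (1 - s) * a (k + 1) := by
          gcongr
          · exact thin_le hs0 hs1 k fun i j h => ha (Nat.succ_le_succ h)
          · exact (thin_le hs0 hs1 k ha).trans (ha (Nat.le_succ k))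
      _ = a (k + 1) := by
          rw [← add_mul, ← ENNReal.ofReal_add hs0 (sub_nonneg.2 hs1), add_sub_cancel,
            ENNReal.ofReal_one, one_mul]

/-- Thinning commutes with partial sums up to the factor `s`. -/
lemma thin_sums (hs0 : 0 ≤ s) (hs1 : s ≤ 1) (a : ℕ → ℝ≥0∞) : ∀ k,
    ENNReal.ofReal s * ∑ j ∈ Finset.range k, thin s j a
      = thin s k (fun m => ∑ j ∈ Finset.range m, a j)
  | 0 => by
    rw [thin, tsum_eq_single 0 fun j hj => by simp [bw, Nat.choose_eq_zero_of_lt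
      (Nat.pos_of_ne_zero hj)]]
    simp
  | k + 1 => by
    rw [thin_succ hs0 hs1, Finset.sum_range_succ, mul_add, thin_sums hs0 hs1 a k]
    have e : thin s k (fun j => ∑ i ∈ Finset.range (j + 1), a i)
        = thin s k (fun m => ∑ i ∈ Finset.range m, a i) + thin s k a := by
      simp only [thin, Finset.sum_range_succ, mul_add, ENNReal.tsum_add]
    rw [e, mul_add, add_right_comm, ← add_mul, ← ENNReal.ofReal_add hs0 (sub_nonneg.2 hs1),
      add_sub_cancel, ENNReal.ofReal_one, one_mul]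

/-- Poisson averages of thinned sums. -/
lemma tsum_pw_thin {d : ℝ} (hd : 0 ≤ d) (hs0 : 0 ≤ s) (hs1 : s ≤ 1) (a : ℕ → ℝ≥0∞) :
    ∑' k, pw d k * thin s k a = ∑' j, pw (d * s) j * a j := by
  simp only [thin, ← ENNReal.tsum_mul_left, ← mul_assoc]
  rw [ENNReal.tsum_comm]
  exact tsum_congr fun j => by rw [ENNReal.tsum_mul_right, tsum_pw_bw hd hs0 hs1]

/-- The averaged bound at a run point holds on the whole box. -/
theorem avP_box {h : (Fin 3 → ℝ) → ℝ} (hh : Adm h) {d D l L x0 : ℝ} (n : ℕ) (hd0 : 0 < d) (hD : 0 < D) (hL : -1 / 2 ≤ L) (hLl : L ≤ l)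
    (hl0 : l < 0) (hds : d * (l / L) ≤ D) (hav : avP L h D n ≤ ENNReal.ofReal (D * x0)) :
    avP l h d n ≤ ENNReal.ofReal (d * x0) := by
  have hL0 : L < 0 := hLl.trans_lt hl0
  obtain ⟨s, rfl⟩ : ∃ s, s * L = l := ⟨l / L, div_mul_cancel₀ _ hL0.ne⟩
  rw [mul_div_cancel_right₀ _ hL0.ne] at hds
  have hs : 0 < s := by
    by_contra hc
    nlinarith [mul_nonneg (neg_nonneg.2 (not_lt.1 hc)) (neg_nonneg.2 hL0.le)]
  have hs1 : s ≤ 1 := by nlinarith
  have hL1 : L ≤ 1 := by linarith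
  set t := d * s / D with ht
  have ht0 : 0 ≤ t := by positivity
  have ht1 : t ≤ 1 := (div_le_one hD).2 hds
  have eD : D * t = d * s := by rw [ht]; field_simp
  set b : ℕ → ℝ≥0∞ := fun j => lev (wgt D n) j (fun r => ENNReal.ofReal (tot L h r (n + 1)))
  have hb : Monotone b := monotone_nat_of_le_succ fun k =>
    lev_le_succ (tsum_wgt hD.le n) k fun c r => ENNReal.ofReal_le_ofReal (tot_le_cons hL hL1 hh c r n)
  have e0 : -1 / 2 ≤ s * L := hL.trans hLl
  have e1 : s * L ≤ 1 := by linarith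
  have hlev : ∀ j, lev (wgt d n) j (fun r => ENNReal.ofReal (tot (s * L) h r (n + 1)))
      ≤ thin s j b := by
    intro j
    have h1 := lev_tot_thin hL hL1 hd0.le hs.le hs1 n
      (fun hf => Ex_tot_thin hL hL1 hd0.le hs.le hs1 n hf) j hh
    have h2 := fun i => lev_tot_mono hL hL1 (d := d * s) (dh := D) n
      (fun hf => Ex_tot_mono hL hL1 (by positivity) hds n hf) i hh
    exact h1.trans (thin_mono h2 j)
  have key : ENNReal.ofReal s * avP (s * L) h d n ≤ ENNReal.ofReal s * ENNReal.ofReal (d * x0) := by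
    calc ENNReal.ofReal s * avP (s * L) h d n
        ≤ ∑' k, pw d k * (ENNReal.ofReal s * ∑ j ∈ Finset.range k, thin s j b) := by
          rw [avP, ← ENNReal.tsum_mul_left]
          refine ENNReal.tsum_le_tsum fun k => ?_
          rw [mul_left_comm]
          gcongr with j hj
          exact hlev j
      _ = ∑' k, pw (D * t) k * ∑ j ∈ Finset.range k, b j := by
          simp only [thin_sums hs.le hs1]
          rw [tsum_pw_thin hd0.le hs.le hs1, eD]
      _ ≤ ENNReal.ofReal t * avP L h D n := by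
          rw [← tsum_pw_thin hD.le ht0 ht1, avP, ← ENNReal.tsum_mul_left]
          refine ENNReal.tsum_le_tsum fun k => ?_
          rw [← thin_sums ht0 ht1, mul_left_comm]
          gcongr with j hj
          exact thin_le ht0 ht1 j hb
      _ ≤ ENNReal.ofReal t * ENNReal.ofReal (D * x0) := mul_le_mul_right hav _
      _ = ENNReal.ofReal s * ENNReal.ofReal (d * x0) := by
          rw [← ENNReal.ofReal_mul ht0, ← ENNReal.ofReal_mul hs.le]
          congr 1; rw [ht]; field_simp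
  exact (ENNReal.mul_le_mul_iff_right (by simp [hs]) ENNReal.ofReal_ne_top).1 key

/-- A conditioned potential and an averaged run bound settle a regular box. -/
theorem regLim_of_cond {ι : Type} [Fintype ι] [Nonempty ι] {d : ℕ} {L x0 : ℝ} (hL : -1 / 2 ≤ L)
    {h : (Fin 3 → ℝ) → ℝ}
    (hc : ∀ l ∈ Set.Ico L 0, (d : ℝ) * l ^ 2 ≤ 1 →
      ∃ (f : ι → (Fin 3 → ℝ) → ℝ) (g : (Fin 3 → ℝ) → ℝ), CondCert l x0 f g h)
    (hrun : ∀ᶠ n in atTop, avT L h d n ≤ d * x0) : RegLim d L := by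
  intro l hl hq
  obtain ⟨f, g, hc'⟩ := hc l hl hq
  have h0 : -1 / 2 ≤ l := hL.trans hl.1
  have h1 : l ≤ 1 := hl.2.le.trans zero_le_one
  refine reg_tendsto_of_cond h0 h1 hc' hq (hrun.mono fun n hn => le_trans ?_ hn)
  exact Finset.sum_le_sum fun j _ => tot_mono_edge hL hl.1 hl.2.le _ _ hc'.adm

/-- A conditioned potential and an averaged run bound settle a Poisson box. -/
theorem gwLim_of_cond {ι : Type} [Fintype ι] [Nonempty ι] {a D L x0 : ℝ} {h : (Fin 3 → ℝ) → ℝ}
    (hD : 0 < D)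
    (hL : -1 / 2 ≤ L) (hL0 : L < 0) (hx0 : 0 ≤ x0)
    (hc : ∀ d ∈ Set.Ioc a ((D * L) ^ 2), ∀ l ∈ Set.Ico L 0, d * l ^ 2 ≤ 1 →
      ∃ (f : ι → (Fin 3 → ℝ) → ℝ) (g : (Fin 3 → ℝ) → ℝ), CondCert l x0 f g h)
    (hrun : ∀ᶠ n in atTop, avP L h D n ≤ ENNReal.ofReal (D * x0)) : GWLim a D L := by
  intro d hd hd0 l hl hq
  obtain ⟨f, g, hc'⟩ := hc d hd l hl hq
  refine gw_tendsto_of_cond (hL.trans hl.1) (hl.2.le.trans zero_le_one) hx0 hc' hd0 hq
    (hrun.mono fun n hn => ?_)
  exact avP_box hc'.adm n hd0 hD hL hl.1 hl.2 (thin_mean_le hd0.le hD.le hL0 hl.2.le hd.2 hq) hn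

end Vale.Agent.P154.Neg
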