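import Vale.Agent.P154.Channel

/-!
# P154: the upgrade order used by the quantised recursion

`Adm` functionals are nonnegative, positively homogeneous and subadditive (hence convex). A weighted
family of vectors dominates a channel when it gives at least as much to every such functional after
symmetrisation over the colours.
-/

namespace Vale.Agent.P154.Neg

open Finset

/-- Nonnegative sublinear functional on the nonnegative orthant. -/
structure Adm (f : (Fin 3 → ℝ) → ℝ) : Prop where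
  nonneg : ∀ x, (∀ i, 0 ≤ x i) → 0 ≤ f x
  smul : ∀ (c : ℝ) (x : Fin 3 → ℝ), 0 ≤ c → (∀ i, 0 ≤ x i) → f (fun i => c * x i) = c * f x
  add_le : ∀ x y : Fin 3 → ℝ, (∀ i, 0 ≤ x i) → (∀ i, 0 ≤ y i) →
    f (fun i => x i + y i) ≤ f x + f y

/-- Average over the six relabellings. -/
noncomputable def sym6 (f : (Fin 3 → ℝ) → ℝ) (x : Fin 3 → ℝ) : ℝ :=
  (∑ p : Equiv.Perm (Fin 3), f (fun i => x (p i))) / 6

/-- Evaluation of a weighted family of orbit atoms. -/
noncomputable def ev {ι : Type} [Fintype ι] (w : ι → ℝ) (v : ι → Fin 3 → ℝ)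
    (f : (Fin 3 → ℝ) → ℝ) : ℝ :=
  ∑ a, w a * sym6 f (v a)

/-- A finite channel is dominated by a family of atoms. -/
def Dom {A ι : Type} [Fintype A] [Fintype ι] (L : A → Fin 3 → ℝ) (w : ι → ℝ)
    (v : ι → Fin 3 → ℝ) : Prop :=
  ∀ f, Adm f → ∑ o, f (L o) ≤ ev w v f

/-- One family of atoms is an upgrade of another. -/
def Upg {ι κ : Type} [Fintype ι] [Fintype κ] (w : ι → ℝ) (v : ι → Fin 3 → ℝ) (u : κ → ℝ)
    (z : κ → Fin 3 → ℝ) : Prop :=
  ∀ f, Adm f → ev w v f ≤ ev u z f

/-- Unit vector. -/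
def single (j : Fin 3) : Fin 3 → ℝ := fun i => if i = j then 1 else 0

lemma single_nonneg (j i : Fin 3) : 0 ≤ single j i := by unfold single; split_ifs <;> norm_num

variable {f : (Fin 3 → ℝ) → ℝ}

lemma Adm.zero (hf : Adm f) : f (fun _ => 0) = 0 := by
  simpa using hf.smul 0 (fun _ => 0) le_rfl (fun _ => le_rfl)

lemma Adm.sum_le (hf : Adm f) {ι : Type} (s : Finset ι) (x : ι → Fin 3 → ℝ)
    (hx : ∀ a ∈ s, ∀ i, 0 ≤ x a i) :
    f (fun i => ∑ a ∈ s, x a i) ≤ ∑ a ∈ s, f (x a) := by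
  classical
  induction s using Finset.induction with
  | empty => simp [hf.zero]
  | insert a s ha ih =>
    simp only [Finset.sum_insert ha]
    refine (hf.add_le _ _ (hx a (Finset.mem_insert_self a s))
      fun i => Finset.sum_nonneg fun b hb => hx b (Finset.mem_insert_of_mem hb) i).trans ?_
    exact add_le_add le_rfl (ih fun b hb => hx b (Finset.mem_insert_of_mem hb))

lemma Adm.comb_le (hf : Adm f) {ι : Type} (s : Finset ι) (c : ι → ℝ) (x : ι → Fin 3 → ℝ)
    (hc : ∀ a ∈ s, 0 ≤ c a) (hx : ∀ a ∈ s, ∀ i, 0 ≤ x a i) :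
    f (fun i => ∑ a ∈ s, c a * x a i) ≤ ∑ a ∈ s, c a * f (x a) :=
  (hf.sum_le s (fun a i => c a * x a i) fun a ha i => mul_nonneg (hc a ha) (hx a ha i)).trans
    (le_of_eq (Finset.sum_congr rfl fun a ha => hf.smul _ _ (hc a ha) (hx a ha)))

lemma Adm.le_single (hf : Adm f) {x : Fin 3 → ℝ} (hx : ∀ i, 0 ≤ x i) :
    f x ≤ ∑ j, x j * f (single j) := by
  have h := hf.comb_le univ x single (fun a _ => hx a) fun a _ i => single_nonneg a i
  simpa [single] using h

lemma Adm.comp_mul (hf : Adm f) {y : Fin 3 → ℝ} (hy : ∀ i, 0 ≤ y i) :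
    Adm (fun x => f (fun i => x i * y i)) where
  nonneg x hx := hf.nonneg _ fun i => mul_nonneg (hx i) (hy i)
  smul c x hc hx := by
    rw [← hf.smul c _ hc fun i => mul_nonneg (hx i) (hy i)]
    exact congrArg f (funext fun i => mul_assoc _ _ _)
  add_le x x' hx hx' := by
    refine le_trans (le_of_eq (congrArg f (funext fun i => ?_)))
      (hf.add_le _ _ (fun i => mul_nonneg (hx i) (hy i)) fun i => mul_nonneg (hx' i) (hy i))
    ring

lemma Adm.mul_left (hf : Adm f) {y : Fin 3 → ℝ} (hy : ∀ i, 0 ≤ y i) :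
    Adm (fun x => f (fun i => y i * x i)) := by
  simpa [mul_comm] using hf.comp_mul hy

lemma Adm.comp_perm (hf : Adm f) (p : Equiv.Perm (Fin 3)) :
    Adm (fun x => f (fun i => x (p i))) where
  nonneg x hx := hf.nonneg _ fun i => hx _
  smul c x hc hx := hf.smul c _ hc fun i => hx _
  add_le x y hx hy := hf.add_le _ _ (fun i => hx _) fun i => hy _

lemma edge_nonneg_neg {l : ℝ} (h0 : -1 / 2 ≤ l) (h1 : l ≤ 1) {x : Fin 3 → ℝ} (hx : ∀ i, 0 ≤ x i)
    (i : Fin 3) : 0 ≤ edge l x i := by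
  have hm := mass_nonneg hx
  rcases le_total 0 l with h | h
  · exact edge_nonneg h h1 hx i
  · have hle : x i ≤ mass x := by
      have := hx 0; have := hx 1; have := hx 2
      fin_cases i <;> simp [mass] <;> linarith
    unfold edge
    nlinarith [mul_le_mul_of_nonpos_left hle h]

lemma edge_add (l : ℝ) (x y : Fin 3 → ℝ) :
    edge l (fun i => x i + y i) = fun i => edge l x i + edge l y i := by
  funext i; simp only [edge, mass]; ring

lemma edge_perm (l : ℝ) (x : Fin 3 → ℝ) (p : Equiv.Perm (Fin 3)) :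
    (fun i => edge l x (p i)) = edge l (fun i => x (p i)) := by
  funext i; simp only [edge, mass_perm]

lemma Adm.comp_edge (hf : Adm f) {l : ℝ} (h0 : -1 / 2 ≤ l) (h1 : l ≤ 1) :
    Adm (fun x => f (edge l x)) where
  nonneg x hx := hf.nonneg _ (edge_nonneg_neg h0 h1 hx)
  smul c x hc hx := by rw [edge_smul]; exact hf.smul c _ hc (edge_nonneg_neg h0 h1 hx)
  add_le x y hx hy := by
    rw [edge_add]; exact hf.add_le _ _ (edge_nonneg_neg h0 h1 hx) (edge_nonneg_neg h0 h1 hy)

lemma adm_sum {ι : Type} [Fintype ι] {g : ι → (Fin 3 → ℝ) → ℝ} (hg : ∀ a, Adm (g a))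
    {c : ι → ℝ} (hc : ∀ a, 0 ≤ c a) : Adm (fun x => ∑ a, c a * g a x) where
  nonneg x hx := Finset.sum_nonneg fun a _ => mul_nonneg (hc a) ((hg a).nonneg x hx)
  smul k x hk hx := by
    rw [Finset.mul_sum]
    exact Finset.sum_congr rfl fun a _ => by rw [(hg a).smul k x hk hx]; ring
  add_le x y hx hy := by
    rw [← Finset.sum_add_distrib]
    exact Finset.sum_le_sum fun a _ => by
      rw [← mul_add]; exact mul_le_mul_of_nonneg_left ((hg a).add_le x y hx hy) (hc a)

lemma Adm.sym6 (hf : Adm f) : Adm (Neg.sym6 f) := by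
  have h := adm_sum (g := fun p : Equiv.Perm (Fin 3) => fun x => f (fun i => x (p i)))
    (fun p => hf.comp_perm p) (c := fun _ => 1 / 6) (fun _ => by norm_num)
  convert h using 1
  funext x
  simp only [Neg.sym6, ← Finset.mul_sum]; ring

lemma sym6_perm (f : (Fin 3 → ℝ) → ℝ) (x : Fin 3 → ℝ) (p : Equiv.Perm (Fin 3)) :
    sym6 f (fun i => x (p i)) = sym6 f x := by
  unfold sym6
  congr 1
  exact Fintype.sum_equiv (Equiv.mulLeft p) _ _ fun q => rfl

lemma sym6_nonneg (hf : Adm f) {x : Fin 3 → ℝ} (hx : ∀ i, 0 ≤ x i) : 0 ≤ sym6 f x :=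
  hf.sym6.nonneg x hx

lemma sym6_edge (f : (Fin 3 → ℝ) → ℝ) (l : ℝ) (x : Fin 3 → ℝ) :
    sym6 (fun y => f (edge l y)) x = sym6 f (edge l x) := by
  simp only [sym6, edge_perm]

lemma sym6_single (f : (Fin 3 → ℝ) → ℝ) (j : Fin 3) : sym6 f (single j) = sym6 f (single 0) := by
  have e : single j = fun i => single 0 (Equiv.swap 0 j i) := by
    funext i
    simp only [single]
    congr 1
    rw [Equiv.swap_apply_eq_iff, Equiv.swap_apply_left]
  rw [e, sym6_perm]

lemma perm_univ : (univ : Finset (Equiv.Perm (Fin 3))) = univ.image perm6 := by decide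

/-- The symmetrisation written out. -/
lemma sym6_eq (f : (Fin 3 → ℝ) → ℝ) (x : Fin 3 → ℝ) :
    sym6 f x = (∑ k, f (fun i => x (perm6 k i))) / 6 := by
  rw [sym6, perm_univ, Finset.sum_image]
  intro a _ b _ h
  revert a b
  decide

/-- A nonnegative vector is below its mass at the certain atom. -/
lemma sym6_le_single (hf : Adm f) {x : Fin 3 → ℝ} (hx : ∀ i, 0 ≤ x i) :
    sym6 f x ≤ mass x * sym6 f (single 0) := by
  refine (hf.sym6.le_single hx).trans (le_of_eq ?_)
  simp only [sym6_single f, ← Finset.sum_mul, mass_eq_sum]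

/-- Upgrading one atom through an exact identity `D x = ∑ cⱼ (zⱼ∘σⱼ) + r`. -/
lemma sym6_le_comb (hf : Adm f) {κ : Type} [Fintype κ] {D : ℝ} (hD : 0 < D) {x r : Fin 3 → ℝ}
    (hx : ∀ i, 0 ≤ x i) (c : κ → ℝ) (z : κ → Fin 3 → ℝ) (p : κ → Equiv.Perm (Fin 3))
    (hc : ∀ j, 0 ≤ c j) (hz : ∀ j i, 0 ≤ z j i) (hr : ∀ i, 0 ≤ r i)
    (he : ∀ i, D * x i = ∑ j, c j * z j (p j i) + r i) :
    D * sym6 f x ≤ ∑ j, c j * sym6 f (z j) + mass r * sym6 f (single 0) := by
  rw [← hf.sym6.smul D x hD.le hx, show (fun i => D * x i) = fun i =>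
    (∑ j, c j * z j (p j i)) + r i from funext he]
  refine (hf.sym6.add_le _ _ (fun i => Finset.sum_nonneg fun j _ => mul_nonneg (hc j) (hz j _))
    hr).trans (add_le_add ?_ (sym6_le_single hf hr))
  refine (hf.sym6.comb_le univ c (fun j i => z j (p j i)) (fun j _ => hc j)
    fun j _ i => hz j _).trans (le_of_eq ?_)
  exact Finset.sum_congr rfl fun j _ => by rw [sym6_perm]

variable {A B ι κ : Type} [Fintype A] [Fintype B] [Fintype ι] [Fintype κ]
variable {w : ι → ℝ} {v : ι → Fin 3 → ℝ} {u : κ → ℝ} {z : κ → Fin 3 → ℝ}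

lemma ev_nonneg (hf : Adm f) (hw : ∀ a, 0 ≤ w a) (hv : ∀ a i, 0 ≤ v a i) : 0 ≤ ev w v f :=
  Finset.sum_nonneg fun a _ => mul_nonneg (hw a) (sym6_nonneg hf (hv a))

lemma Dom.upg {L : A → Fin 3 → ℝ} (h : Dom L w v) (h' : Upg w v u z) : Dom L u z :=
  fun f hf => (h f hf).trans (h' f hf)

lemma Upg.trans {μ : Type} [Fintype μ] {s : μ → ℝ} {y : μ → Fin 3 → ℝ} (h : Upg w v u z)
    (h' : Upg u z s y) : Upg w v s y :=
  fun f hf => (h f hf).trans (h' f hf)

/-- Every channel is dominated by the certain atom. -/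
theorem dom_top {L : A → Fin 3 → ℝ} (hL : Good L) :
    Dom L (fun _ : PUnit => (3 : ℝ)) (fun _ => single 0) := by
  intro f hf
  refine (Finset.sum_le_sum fun o _ => hf.le_single (hL.nonneg o)).trans (le_of_eq ?_)
  have hsum : ∑ p : Equiv.Perm (Fin 3), f (fun i => single 0 (p i)) = 2 * ∑ j, f (single j) := by
    have hc : ∀ p : Equiv.Perm (Fin 3), (fun i => single 0 (p i)) = single (p.symm 0) := by
      intro p; funext i; simp only [single]; congr 1; rw [Equiv.eq_symm_apply]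
    simp only [hc]
    rw [perm_univ, Finset.sum_image (by intro a _ b _ h; revert a b; decide), Fin.sum_univ_six,
      Fin.sum_univ_three]
    simp [perm6, Equiv.Perm.mul_def]
    simp [Equiv.swap_apply_def, Equiv.Perm.one_def]
    ring
  rw [Finset.sum_comm]
  simp only [← Finset.sum_mul, hL.col, one_mul]
  simp only [ev, sym6, hsum, Finset.univ_unique, Finset.sum_singleton]
  ring

/-- The uninformative channel. -/
theorem dom_unit : Dom (A := PUnit) (fun _ _ => (1 : ℝ)) (fun _ : PUnit => (1 : ℝ))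
    (fun _ _ => (1 : ℝ)) := by
  intro f _
  simp [ev, sym6, Fintype.card_perm, Nat.factorial]

/-- The edge acts atom by atom. -/
theorem Dom.edge {L : A → Fin 3 → ℝ} (h : Dom L w v) {l : ℝ} (h0 : -1 / 2 ≤ l) (h1 : l ≤ 1) :
    Dom (fun o => edge l (L o)) w (fun a => edge l (v a)) := by
  intro f hf
  refine (h _ (hf.comp_edge h0 h1)).trans (le_of_eq ?_)
  simp only [ev, sym6_edge]

/-- Weights of the product family. -/
noncomputable def prodW (w : ι → ℝ) (u : κ → ℝ) : ι × κ × Equiv.Perm (Fin 3) → ℝ :=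
  fun q => w q.1 * u q.2.1 / 6

/-- Vectors of the product family. -/
def prodV (v : ι → Fin 3 → ℝ) (z : κ → Fin 3 → ℝ) : ι × κ × Equiv.Perm (Fin 3) → Fin 3 → ℝ :=
  fun q i => v q.1 i * z q.2.1 (q.2.2 i)

lemma sym6_sym6 (f : (Fin 3 → ℝ) → ℝ) (x y : Fin 3 → ℝ) :
    sym6 (fun x => sym6 (fun y => f (fun i => x i * y i)) y) x
      = ∑ p : Equiv.Perm (Fin 3), sym6 f (fun i => x i * y (p i)) / 6 := by
  have e : ∀ q : Equiv.Perm (Fin 3), ∑ r : Equiv.Perm (Fin 3), f (fun i => x (q i) * y (r i))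
      = ∑ p : Equiv.Perm (Fin 3), f (fun i => x (q i) * y (p (q i))) := fun q =>
    (Fintype.sum_equiv (Equiv.mulRight q) _ _ fun p => rfl).symm
  simp only [sym6, e, Finset.sum_div]
  rw [Finset.sum_comm]

lemma ev_prodW (w : ι → ℝ) (v : ι → Fin 3 → ℝ) (u : κ → ℝ) (z : κ → Fin 3 → ℝ)
    (f : (Fin 3 → ℝ) → ℝ) :
    ev w v (fun x => ev u z (fun y => f (fun i => x i * y i))) = ev (prodW w u) (prodV v z) f := by
  have h1 : ∀ a, sym6 (fun x => ev u z (fun y => f (fun i => x i * y i))) (v a)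
      = ∑ b, u b * sym6 (fun x => sym6 (fun y => f (fun i => x i * y i)) (z b)) (v a) := by
    intro a
    simp only [ev, sym6]
    rw [Finset.sum_comm, Finset.sum_div]
    refine Finset.sum_congr rfl fun b _ => ?_
    rw [← Finset.mul_sum, mul_div_assoc]
  rw [ev, ev, Fintype.sum_prod_type]
  refine Finset.sum_congr rfl fun a _ => ?_
  rw [h1, Finset.mul_sum, Fintype.sum_prod_type]
  refine Finset.sum_congr rfl fun b _ => ?_
  rw [sym6_sym6, Finset.mul_sum, Finset.mul_sum]
  exact Finset.sum_congr rfl fun p _ => by unfold prodV; simp only [prodW]; ring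

lemma adm_ev (hw : ∀ a, 0 ≤ w a) {g : (Fin 3 → ℝ) → (Fin 3 → ℝ) → ℝ}
    (hg : ∀ y, (∀ i, 0 ≤ y i) → Adm (fun x => g x y)) (hv : ∀ a i, 0 ≤ v a i) :
    Adm (fun x => ev w v (g x)) := by
  have h := adm_sum
    (g := fun a => fun x => ∑ p : Equiv.Perm (Fin 3), (1 / 6 : ℝ) * g x (fun i => v a (p i)))
    (fun a => adm_sum (g := fun p : Equiv.Perm (Fin 3) => fun x => g x (fun i => v a (p i)))
      (fun p => hg _ fun i => hv a (p i)) fun _ => by norm_num) hw
  convert h using 1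
  funext x
  refine Finset.sum_congr rfl fun a _ => ?_
  simp only [sym6, ← Finset.mul_sum]; ring

/-- Domination passes to conditionally independent observations. -/
theorem Dom.prod {L : A → Fin 3 → ℝ} {M : B → Fin 3 → ℝ} (hL : ∀ o i, 0 ≤ L o i)
    (h : Dom L w v) (h' : Dom M u z) (hu : ∀ b, 0 ≤ u b) (hz : ∀ b i, 0 ≤ z b i) :
    Dom (prodL L M) (prodW w u) (prodV v z) := by
  intro f hf
  rw [← ev_prodW, Fintype.sum_prod_type]
  refine le_trans ?_ (h _ (adm_ev (g := fun x y => f (fun i => x i * y i)) hu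
    (fun y hy => hf.comp_mul hy) hz))
  exact Finset.sum_le_sum fun a _ => h' _ (hf.mul_left (hL a))

/-- Upgrades are compatible with the product. -/
theorem Upg.prod {ι' κ' : Type} [Fintype ι'] [Fintype κ'] {w' : ι' → ℝ} {v' : ι' → Fin 3 → ℝ}
    {u' : κ' → ℝ} {z' : κ' → Fin 3 → ℝ} (hw : ∀ a, 0 ≤ w a) (hv : ∀ a i, 0 ≤ v a i)
    (hu' : ∀ b, 0 ≤ u' b) (hz' : ∀ b i, 0 ≤ z' b i)
    (h : Upg w v w' v') (h' : Upg u z u' z') :
    Upg (prodW w u) (prodV v z) (prodW w' u') (prodV v' z') := by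
  intro f hf
  rw [← ev_prodW, ← ev_prodW]
  refine le_trans ?_ (h _ (adm_ev (g := fun x y => f (fun i => x i * y i)) hu'
    (fun y hy => hf.comp_mul hy) hz'))
  refine Finset.sum_le_sum fun a _ => mul_le_mul_of_nonneg_left ?_ (hw a)
  refine div_le_div_of_nonneg_right (Finset.sum_le_sum fun p _ => ?_) (by norm_num)
  exact h' _ (hf.mul_left fun i => hv a (p i))

lemma sum_perm_coord (y : Fin 3 → ℝ) (i : Fin 3) :
    ∑ p : Equiv.Perm (Fin 3), y (p i) = 2 * mass y := by
  rw [perm_univ, Finset.sum_image (by intro a _ b _ h; revert a b; decide), Fin.sum_univ_six]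
  fin_cases i <;> simp [perm6, Equiv.swap_apply_def, mass] <;> ring

/-- The uniform vector lies below every vector of the same mass. -/
lemma sym6_mean_le (hf : Adm f) {y : Fin 3 → ℝ} (hy : ∀ i, 0 ≤ y i) :
    sym6 f (fun _ => mass y / 3) ≤ sym6 f y := by
  have hg : Adm (Neg.sym6 f) := hf.sym6
  have hs : (fun i => ∑ p : Equiv.Perm (Fin 3), (1 / 6 : ℝ) * y (p i))
      = fun _ : Fin 3 => mass y / 3 := by
    funext i
    rw [← Finset.mul_sum, sum_perm_coord]; ring
  have h := Adm.comb_le hg Finset.univ (fun _ : Equiv.Perm (Fin 3) => (1 / 6 : ℝ))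
    (fun p i => y (p i)) (fun _ _ => by norm_num) (fun p _ i => hy _)
  rw [hs] at h
  refine h.trans (le_of_eq ?_)
  simp only [sym6_perm, Finset.sum_const, Finset.card_univ, Fintype.card_perm, Fintype.card_fin,
    nsmul_eq_mul]
  norm_num [Nat.factorial]
  ring

/-- On the negative side a stronger edge is an upgrade. -/
theorem sym6_edge_mono (hf : Adm f) {lh l : ℝ} (h0 : -1 / 2 ≤ lh) (h1 : lh ≤ l) (h2 : l ≤ 0)
    {x : Fin 3 → ℝ} (hx : ∀ i, 0 ≤ x i) : sym6 f (edge l x) ≤ sym6 f (edge lh x) := by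
  rcases (h1.trans h2).eq_or_lt with h | h
  · rw [le_antisymm h2 (h ▸ h1), h]
  set ρ := l / lh
  have hρ0 : 0 ≤ ρ := div_nonneg_of_nonpos h2 h.le
  have hρ1 : ρ ≤ 1 := (div_le_one_of_neg h).2 h1
  have hy := edge_nonneg_neg h0 (by linarith) hx (l := lh)
  have hcst : 0 ≤ mass x / 3 := div_nonneg (mass_nonneg hx) (by norm_num)
  have e : edge l x = fun i => ρ * edge lh x i + (1 - ρ) * (mass x / 3) := by
    funext i
    have : ρ * lh = l := div_mul_cancel₀ l h.ne
    simp only [edge]; rw [← this]; ring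
  have hm : sym6 f (fun _ => mass x / 3) ≤ sym6 f (edge lh x) := by
    have := sym6_mean_le hf hy
    rwa [mass_edge] at this
  rw [e]
  refine (hf.sym6.add_le _ _ (fun i => mul_nonneg hρ0 (hy i))
    fun _ => mul_nonneg (by linarith) hcst).trans ?_
  rw [hf.sym6.smul ρ _ hρ0 hy, hf.sym6.smul (1 - ρ) (fun _ => mass x / 3) (by linarith) fun _ => hcst]
  nlinarith [mul_le_mul_of_nonneg_left hm (sub_nonneg.2 hρ1)]

/-- The second-moment functional. -/
noncomputable def sX (x : Fin 3 → ℝ) : ℝ := mass x / 3 - q2 x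

lemma adm_sX : Adm sX where
  nonneg x hx := by
    rcases (mass_nonneg hx).eq_or_lt with h | h
    · simp [sX, q2, ← h]
    · rw [sX, sub_nonneg, q2, div_le_iff₀ h]
      simp only [mass, esy2]
      nlinarith [sq_nonneg (x 0 - x 1), sq_nonneg (x 0 - x 2), sq_nonneg (x 1 - x 2)]
  smul c x _ _ := by simp only [sX, q2_smul, mass_smul]; ring
  add_le x y hx hy := by
    have hm : mass (fun i => x i + y i) = mass x + mass y := by simp only [mass]; ring
    rcases (mass_nonneg hx).eq_or_lt with h | hs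
    · have hx0 := eq_zero_of_mass hx h.symm
      simp [sX, q2, esy2, mass, hx0]
    rcases (mass_nonneg hy).eq_or_lt with h | ht
    · have hy0 := eq_zero_of_mass hy h.symm
      simp [sX, q2, esy2, mass, hy0]
    suffices q2 x + q2 y ≤ q2 (fun i => x i + y i) by simp only [sX, hm]; linarith
    rw [q2, q2, q2, hm, div_add_div _ _ hs.ne' ht.ne',
      div_le_div_iff₀ (mul_pos hs ht) (by linarith)]
    have key : esy2 (fun i => x i + y i) * (mass x * mass y)
        - (esy2 x * mass y + mass x * esy2 y) * (mass x + mass y) =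
        ((mass y * x 0 - mass x * y 0) ^ 2 + (mass y * x 1 - mass x * y 1) ^ 2
          + (mass y * x 2 - mass x * y 2) ^ 2) / 2 := by
      simp only [esy2, mass]; ring
    nlinarith [sq_nonneg (mass y * x 0 - mass x * y 0), sq_nonneg (mass y * x 1 - mass x * y 1),
      sq_nonneg (mass y * x 2 - mass x * y 2)]

lemma sum_sX {L : A → Fin 3 → ℝ} (hL : Good L) : ∑ o, sX (L o) = chX L := by
  simp only [sX, Finset.sum_sub_distrib, ← Finset.sum_div, hL.sum_mass, chX]
  norm_num

lemma sym6_sX (x : Fin 3 → ℝ) : sym6 sX x = sX x := by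
  have : ∀ p : Equiv.Perm (Fin 3), sX (fun i => x (p i)) = sX x := by
    intro p
    simp only [sX, q2, mass_perm]
    congr 2
    have e : ∀ y : Fin 3 → ℝ, esy2 y = ((∑ i, y i) ^ 2 - ∑ i, y i ^ 2) / 2 := by
      intro y; simp only [esy2, Fin.sum_univ_three]; ring
    rw [e, e, Equiv.sum_comp p x, Equiv.sum_comp p (fun i => x i ^ 2)]
  simp [sym6, this, Fintype.card_perm, Nat.factorial]

/-- Domination bounds the second moment. -/
theorem chX_le_of_dom {L : A → Fin 3 → ℝ} (hL : Good L) (h : Dom L w v) :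
    chX L ≤ ∑ a, w a * sX (v a) := by
  have := h sX adm_sX
  rw [sum_sX hL] at this
  simpa [ev, sym6_sX] using this

end Vale.Agent.P154.Neg
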