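import Vale.Agent.P154.TreeBound
import Vale.Agent.P154.Neg.Order

/-!
# P154: tree level facts for every admissible `λ ∈ [-1/2, 1]`

Observations of deeper levels are garblings of shallower ones, joining children lists multiplies
channels, and the total variation is controlled by the second moment.
-/

namespace Vale.Agent.P154.Neg

open Finset

variable {l : ℝ}

/-- `M` is a garbling of `L`. -/
def Garb {A B : Type} [Fintype A] [Fintype B] (L : A → Fin 3 → ℝ) (M : B → Fin 3 → ℝ) : Prop :=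
  ∃ K : A → B → ℝ, (∀ a b, 0 ≤ K a b) ∧ (∀ a, ∑ b, K a b = 1) ∧
    ∀ b i, M b i = ∑ a, K a b * L a i

section Garbling

variable {A B A' B' : Type} [Fintype A] [Fintype B] [Fintype A'] [Fintype B']

lemma Garb.total_le {f : (Fin 3 → ℝ) → ℝ} (hf : Adm f) {L : A → Fin 3 → ℝ}
    {M : B → Fin 3 → ℝ} (hL : ∀ a i, 0 ≤ L a i) (h : Garb L M) :
    ∑ b, f (M b) ≤ ∑ a, f (L a) := by
  obtain ⟨K, hK0, hK1, hM⟩ := h
  calc ∑ b, f (M b) = ∑ b, f (fun i => ∑ a, K a b * L a i) := by simp only [← hM]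
    _ ≤ ∑ b, ∑ a, K a b * f (L a) := Finset.sum_le_sum fun b _ =>
        hf.comb_le univ (fun a => K a b) L (fun a _ => hK0 a b) (fun a _ => hL a)
    _ = ∑ a, f (L a) := by rw [Finset.sum_comm]; simp [← Finset.sum_mul, hK1]

lemma Garb.refl (L : A → Fin 3 → ℝ) : Garb L L := by
  classical
  exact ⟨fun a b => if a = b then 1 else 0, fun a b => by dsimp only; split_ifs <;> norm_num,
    fun a => by simp, fun b i => by simp⟩

lemma Garb.edge {L : A → Fin 3 → ℝ} {M : B → Fin 3 → ℝ} (l : ℝ) (h : Garb L M) :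
    Garb (fun a => edge l (L a)) (fun b => edge l (M b)) := by
  obtain ⟨K, hK0, hK1, hM⟩ := h
  refine ⟨K, hK0, hK1, fun b i => ?_⟩
  simp only [P154.edge, mass, hM]
  rw [Finset.mul_sum, ← Finset.sum_add_distrib, ← Finset.sum_add_distrib, Finset.mul_sum,
    ← Finset.sum_add_distrib]
  exact Finset.sum_congr rfl fun a _ => by ring

lemma Garb.prod {L : A → Fin 3 → ℝ} {M : B → Fin 3 → ℝ} {L' : A' → Fin 3 → ℝ}
    {M' : B' → Fin 3 → ℝ} (h : Garb L M) (h' : Garb L' M') :
    Garb (prodL L L') (prodL M M') := by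
  obtain ⟨K, hK0, hK1, hM⟩ := h
  obtain ⟨K', hK0', hK1', hM'⟩ := h'
  refine ⟨fun a b => K a.1 b.1 * K' a.2 b.2, fun a b => mul_nonneg (hK0 _ _) (hK0' _ _),
    fun a => ?_, fun b i => ?_⟩
  · rw [Fintype.sum_prod_type]
    simp [← Finset.mul_sum, hK1', hK1]
  · simp only [prodL, hM, hM', Finset.sum_mul, Finset.mul_sum, Fintype.sum_prod_type]
    rw [Finset.sum_comm]
    exact Finset.sum_congr rfl fun a' _ => Finset.sum_congr rfl fun a _ => by ring

lemma Garb.of_vertex {M : B → Fin 3 → ℝ} (hM : Good M) :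
    Garb (A := Fin 3) (fun o i => if o.val = i.val then (1 : ℝ) else 0) M :=
  ⟨fun a b => M b a, fun a b => hM.nonneg b a, hM.col,
    fun b i => by simp [← Fin.ext_iff]⟩

lemma good_child {L : A → Fin 3 → ℝ} (hL : Good L) (h0 : -1 / 2 ≤ l) (h1 : l ≤ 1) :
    Good (fun o => edge l (L o)) where
  nonneg o i := edge_nonneg_neg h0 h1 (hL.nonneg o) i
  col i := by
    simp only [P154.edge, Finset.sum_add_distrib, ← Finset.mul_sum, hL.col, hL.sum_mass]; ring
  sym f p := by
    have : ∀ o, (fun i => edge l (L o) (p i)) = edge l (fun i => L o (p i)) := by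
      intro o; funext i; simp only [P154.edge, mass_perm]
    simp only [this]
    exact hL.sym (fun x => f (edge l x)) p

end Garbling

lemma good_lik (h0 : -1 / 2 ≤ l) (h1 : l ≤ 1) : ∀ (t : Tree) (n : ℕ), Good (lik l t n)
  | .nil, 0 => good_vertex
  | .cons _ _, 0 => good_vertex
  | .nil, _ + 1 => good_unit
  | .cons c r, n + 1 => by
    rw [lik_cons]
    exact (good_child (good_lik h0 h1 c n) h0 h1).prod (good_lik h0 h1 r (n + 1))

lemma garb_lik (h0 : -1 / 2 ≤ l) (h1 : l ≤ 1) : ∀ (t : Tree) (n : ℕ),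
    Garb (lik l t n) (lik l t (n + 1))
  | .nil, 0 => Garb.of_vertex (good_lik h0 h1 _ 1)
  | .cons _ _, 0 => Garb.of_vertex (good_lik h0 h1 _ 1)
  | .nil, _ + 1 => Garb.refl _
  | .cons c r, n + 1 => by
    rw [lik_cons, lik_cons]
    exact ((garb_lik h0 h1 c n).edge l).prod (garb_lik h0 h1 r (n + 1))

/-- Total of a functional over the root channel. -/
noncomputable def tot (l : ℝ) (f : (Fin 3 → ℝ) → ℝ) (t : Tree) (n : ℕ) : ℝ :=
  ∑ o, f (lik l t n o)

lemma tot_anti (h0 : -1 / 2 ≤ l) (h1 : l ≤ 1) {f : (Fin 3 → ℝ) → ℝ} (hf : Adm f) (t : Tree)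
    (n : ℕ) : tot l f t (n + 1) ≤ tot l f t n :=
  (garb_lik h0 h1 t n).total_le hf (good_lik h0 h1 t n).nonneg

lemma tot_nonneg (h0 : -1 / 2 ≤ l) (h1 : l ≤ 1) {f : (Fin 3 → ℝ) → ℝ} (hf : Adm f) (t : Tree)
    (n : ℕ) : 0 ≤ tot l f t n :=
  Finset.sum_nonneg fun o _ => hf.nonneg _ ((good_lik h0 h1 t n).nonneg o)

/-- The part of a tree down to depth `n`. -/
def cut : ℕ → Tree → Tree
  | 0, _ => .nil
  | _ + 1, .nil => .nil
  | n + 1, .cons c r => .cons (cut n c) (cut (n + 1) r)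

lemma tot_cons (l : ℝ) (f : (Fin 3 → ℝ) → ℝ) (c r : Tree) (n : ℕ) :
    tot l f (.cons c r) (n + 1) = ∑ a, ∑ b, f (fun i => edge l (lik l c n a) i * lik l r (n + 1) b i) := by
  rw [tot, lik_cons]
  exact Fintype.sum_prod_type _

lemma tot_cut (l : ℝ) : ∀ (t : Tree) (n : ℕ) (f : (Fin 3 → ℝ) → ℝ),
    tot l f (cut n t) n = tot l f t n
  | .nil, 0, f => rfl
  | .cons _ _, 0, f => rfl
  | .nil, n + 1, f => rfl
  | .cons c r, n + 1, f => by
    rw [cut, tot_cons, tot_cons]
    have e1 : ∀ a : Obs (cut n c) n, ∑ b, f (fun i => edge l (lik l (cut n c) n a) i *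
        lik l (cut (n + 1) r) (n + 1) b i) =
        ∑ b, f (fun i => edge l (lik l (cut n c) n a) i * lik l r (n + 1) b i) := fun a =>
      tot_cut l r (n + 1) fun y => f fun i => edge l (lik l (cut n c) n a) i * y i
    rw [Finset.sum_congr rfl fun a _ => e1 a]
    exact tot_cut l c n fun x => ∑ b, f fun i => edge l x i * lik l r (n + 1) b i

lemma cut_iter (n : ℕ) (c : Tree) : ∀ k : ℕ,
    cut (n + 1) ((Tree.cons c)^[k] .nil) = (Tree.cons (cut n c))^[k] .nil
  | 0 => rfl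
  | k + 1 => by rw [Function.iterate_succ_apply', cut, cut_iter n c k, Function.iterate_succ_apply']

lemma cut_fullTree (d : ℕ) : ∀ n, cut n (fullTree d (n + 1)) = fullTree d n
  | 0 => by rw [cut, fullTree]
  | n + 1 => by
    rw [show fullTree d (n + 1 + 1) = (Tree.cons (fullTree d (n + 1)))^[d] .nil from rfl, cut_iter,
      cut_fullTree d n]
    rfl

/-- Concatenation of the children lists of two roots. -/
def join : Tree → Tree → Tree
  | .nil, b => b
  | .cons c r, b => .cons c (join r b)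

lemma tot_nil (l : ℝ) (f : (Fin 3 → ℝ) → ℝ) (n : ℕ) : tot l f .nil (n + 1) = f (fun _ => 1) := by
  show ∑ _o : PUnit, f (fun _ => 1) = _
  simp

lemma tot_single (l : ℝ) (f : (Fin 3 → ℝ) → ℝ) (c : Tree) (n : ℕ) :
    tot l f (.cons c .nil) (n + 1) = tot l (fun x => f (edge l x)) c n := by
  rw [tot_cons]
  refine Finset.sum_congr rfl fun a _ => ?_
  refine (tot_nil l (fun y => f fun i => edge l (lik l c n a) i * y i) n).trans ?_
  simp

lemma tot_join (l : ℝ) (n : ℕ) : ∀ (a b : Tree) (f : (Fin 3 → ℝ) → ℝ),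
    tot l f (join a b) (n + 1) =
      tot l (fun x => tot l (fun y => f (fun i => x i * y i)) b (n + 1)) a (n + 1)
  | .nil, b, f => by rw [tot_nil]; simp [join]
  | .cons c r, b, f => by
    rw [join, tot_cons, tot_cons]
    refine Finset.sum_congr rfl fun a _ => ?_
    refine (tot_join l n r b (fun y => f fun i => edge l (lik l c n a) i * y i)).trans ?_
    simp only [tot, mul_assoc]

lemma join_iter (c : Tree) : ∀ i j : ℕ,
    join ((Tree.cons c)^[i] .nil) ((Tree.cons c)^[j] .nil) = (Tree.cons c)^[i + j] .nil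
  | 0, j => by simp [join]
  | i + 1, j => by
    rw [Function.iterate_succ_apply', join, join_iter c i j, Nat.add_right_comm,
      Function.iterate_succ_apply']

/-- One more child only adds information. -/
lemma tot_le_cons (h0 : -1 / 2 ≤ l) (h1 : l ≤ 1) {f : (Fin 3 → ℝ) → ℝ} (hf : Adm f)
    (c r : Tree) (n : ℕ) : tot l f r (n + 1) ≤ tot l f (.cons c r) (n + 1) := by
  rw [tot_cons, Finset.sum_comm]
  refine Finset.sum_le_sum fun b _ => ?_
  have hc := good_child (good_lik h0 h1 c n) h0 h1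
  have hr := (good_lik h0 h1 r (n + 1)).nonneg b
  refine le_trans (le_of_eq (congrArg f (funext fun i => ?_)))
    (hf.sum_le univ (fun a i => edge l (lik l c n a) i * lik l r (n + 1) b i)
      fun a _ i => mul_nonneg (hc.nonneg a i) (hr i))
  rw [← Finset.sum_mul, hc.col, one_mul]

lemma tot_le_top (h0 : -1 / 2 ≤ l) (h1 : l ≤ 1) {f : (Fin 3 → ℝ) → ℝ} (hf : Adm f) (t : Tree)
    (n : ℕ) : tot l f t n ≤ 3 * sym6 f (single 0) := by
  simpa [ev, tot] using dom_top (good_lik h0 h1 t n) f hf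

lemma tX_mem (h0 : -1 / 2 ≤ l) (h1 : l ≤ 1) (t : Tree) (n : ℕ) : 0 ≤ tX l t n ∧ tX l t n ≤ 1 :=
  ⟨chX_nonneg (good_lik h0 h1 t n), chX_le_one (good_lik h0 h1 t n)⟩

lemma tot_sX (h0 : -1 / 2 ≤ l) (h1 : l ≤ 1) (t : Tree) (n : ℕ) : tot l sX t n = tX l t n :=
  sum_sX (good_lik h0 h1 t n)

lemma aTree_eq (h0 : -1 / 2 ≤ l) (h1 : l ≤ 1) (t : Tree) (n : ℕ) :
    aTree l t n = (∑ o, ∑ i, |lik l t n o i - mass (lik l t n o) / 3|) / 6 := by
  have hG := good_lik h0 h1 t n
  rw [Finset.sum_div]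
  unfold aTree
  refine Finset.sum_congr rfl fun o _ => ?_
  rw [← mass_eq_sum]
  rcases (mass_nonneg (hG.nonneg o)).eq_or_lt with h | h
  · simp [← h, eq_zero_of_mass (hG.nonneg o) h.symm]
  · have : ∀ i, |lik l t n o i / mass (lik l t n o) - 1 / 3|
        = |lik l t n o i - mass (lik l t n o) / 3| / mass (lik l t n o) := by
      intro i
      conv_rhs => rw [← abs_of_pos h, ← abs_div, abs_of_pos h]
      congr 1; field_simp
    simp only [this, ← Finset.sum_div]
    field_simp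
    ring

lemma aTree_nonneg (h0 : -1 / 2 ≤ l) (h1 : l ≤ 1) (t : Tree) (n : ℕ) : 0 ≤ aTree l t n := by
  rw [aTree_eq h0 h1]; positivity

lemma aTree_le (h0 : -1 / 2 ≤ l) (h1 : l ≤ 1) (t : Tree) (n : ℕ) {η : ℝ} (hη : 0 < η) :
    aTree l t n ≤ 3 / 2 * η + tX l t n / (12 * η) := by
  have hG := good_lik h0 h1 t n
  rw [aTree_eq h0 h1]
  have key : ∑ o, ∑ i, |lik l t n o i - mass (lik l t n o) / 3|
      ≤ ∑ o, ∑ i, (η * mass (lik l t n o)
        + (lik l t n o i - mass (lik l t n o) / 3) ^ 2 / mass (lik l t n o) / (4 * η)) := by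
    refine Finset.sum_le_sum fun o _ => Finset.sum_le_sum fun i _ => ?_
    rcases (mass_nonneg (hG.nonneg o)).eq_or_lt with h | h
    · simp [← h, eq_zero_of_mass (hG.nonneg o) h.symm]
    · exact abs_ratio h hη
  have e2 : ∑ o, ∑ i, (η * mass (lik l t n o)
        + (lik l t n o i - mass (lik l t n o) / 3) ^ 2 / mass (lik l t n o) / (4 * η))
      = 9 * η + 2 * chX (lik l t n) / (4 * η) := by
    rw [← two_chX hG, Finset.sum_div]
    simp only [Finset.sum_add_distrib, Finset.sum_div]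
    simp only [Finset.sum_const, Finset.card_univ, Fintype.card_fin, nsmul_eq_mul,
      ← Finset.mul_sum, hG.sum_mass]
    push_cast; ring
  rw [e2] at key
  have e : 2 * chX (lik l t n) / (4 * η) = 6 * (tX l t n / (12 * η)) := by
    unfold tX; field_simp; ring
  linarith

end Vale.Agent.P154.Neg
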