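import Vale.Agent.P154.Neg.RunBound

/-!
# P154: domination of finite mixtures over the number of children

A weighted sum of roots with given numbers of children is dominated by one family; such bounds
combine linearly, shift by a fixed group of children, and give `MDom` from lower bounds of the
Poisson weights.
-/

namespace Vale.Agent.P154.Neg

open Finset Filter Topology ENNReal

variable {l d : ℝ} {n : ℕ} {ι κ μ : Type} [Fintype ι] [Fintype κ] [Fintype μ]
variable {w : ι → ℝ} {v : ι → Fin 3 → ℝ} {u : κ → ℝ} {z : κ → Fin 3 → ℝ}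
variable {s : Finset ℕ} {c : ℕ → ℝ}

/-- Domination of the mixture with weight `c k` on roots with `k` children, `k ∈ s`. -/
def MixDom (l d : ℝ) (n : ℕ) (s : Finset ℕ) (c : ℕ → ℝ) (w : ι → ℝ) (v : ι → Fin 3 → ℝ) : Prop :=
  ∀ f, Adm f → ∑ k ∈ s, ENNReal.ofReal (c k)
      * lev (wgt d n) k (fun r => ENNReal.ofReal (tot l f r (n + 1)))
    ≤ ENNReal.ofReal (ev w v f)

lemma MixDom.upg (h : MixDom l d n s c w v) (h' : Upg w v u z) : MixDom l d n s c u z :=
  fun f hf => (h f hf).trans (ENNReal.ofReal_le_ofReal (h' f hf))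

/-- A fixed number of children. -/
theorem KDom.mix {k : ℕ} (h : KDom l d n k w v) : MixDom l d n {k} (fun _ => 1) w v := by
  intro f hf
  rw [Finset.sum_singleton, ENNReal.ofReal_one, one_mul]
  exact h f hf

/-- Nonnegative combinations: weights dominated termwise by a combination inherit the combined
family. -/
theorem mix_lin {I : Type} [Fintype I] {S : I → Finset ℕ} {C : I → ℕ → ℝ} {W : I → ι → ℝ}
    {γ : I → ℝ} (hγ : ∀ i, 0 ≤ γ i) (hS : ∀ i, S i ⊆ s) (hC : ∀ i, ∀ k ∈ S i, 0 ≤ C i k)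
    (hW : ∀ i a, 0 ≤ W i a) (hv : ∀ a j, 0 ≤ v a j) (h : ∀ i, MixDom l d n (S i) (C i) (W i) v)
    (hc : ∀ k ∈ s, c k ≤ ∑ i, if k ∈ S i then γ i * C i k else 0) :
    MixDom l d n s c (fun a => ∑ i, γ i * W i a) v := by
  intro f hf
  set L : ℕ → ℝ≥0∞ := fun k => lev (wgt d n) k (fun r => ENNReal.ofReal (tot l f r (n + 1)))
  have e : ev (fun a => ∑ i, γ i * W i a) v f = ∑ i, γ i * ev (W i) v f := by
    simp only [ev, Finset.sum_mul, Finset.mul_sum, mul_assoc]
    exact Finset.sum_comm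
  rw [e, ENNReal.ofReal_sum_of_nonneg fun i _ => mul_nonneg (hγ i) (ev_nonneg hf (hW i) hv)]
  calc ∑ k ∈ s, ENNReal.ofReal (c k) * L k
      ≤ ∑ k ∈ s, ∑ i, if k ∈ S i then ENNReal.ofReal (γ i) * (ENNReal.ofReal (C i k) * L k)
          else 0 := by
        refine Finset.sum_le_sum fun k hk => ?_
        refine (mul_le_mul_left (ENNReal.ofReal_le_ofReal (hc k hk)) _).trans (le_of_eq ?_)
        rw [ENNReal.ofReal_sum_of_nonneg fun i _ => by
          split_ifs with hi
          · exact mul_nonneg (hγ i) (hC i k hi)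
          · exact le_rfl, Finset.sum_mul]
        refine Finset.sum_congr rfl fun i _ => ?_
        split_ifs
        · rw [ENNReal.ofReal_mul (hγ i), mul_assoc]
        · simp
    _ = ∑ i, ENNReal.ofReal (γ i) * ∑ k ∈ S i, ENNReal.ofReal (C i k) * L k := by
        rw [Finset.sum_comm]
        refine Finset.sum_congr rfl fun i _ => ?_
        rw [Finset.sum_ite_mem, Finset.inter_eq_right.2 (hS i), Finset.mul_sum]
    _ ≤ ∑ i, ENNReal.ofReal (γ i * ev (W i) v f) := by
        refine Finset.sum_le_sum fun i _ => ?_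
        rw [ENNReal.ofReal_mul (hγ i)]
        exact mul_le_mul_right (h i f hf) _

/-- A fixed group of children in front of a mixture. -/
theorem mix_shift (h0 : -1 / 2 ≤ l) (h1 : l ≤ 1) {j : ℕ} (hc : ∀ k ∈ s, 0 ≤ c k)
    (ha : KDom l d n j w v) (hb : MixDom l d n s c u z) (hu : ∀ b, 0 ≤ u b)
    (hz : ∀ b i, 0 ≤ z b i) :
    MixDom l d n (s.map (addLeftEmbedding j)) (fun m => c (m - j)) (prodW w u) (prodV v z) := by
  intro f hf
  rw [Finset.sum_map, ← ev_prodW]
  simp only [addLeftEmbedding_apply, Nat.add_sub_cancel_left, lev_join, ← lev_mul, ← lev_sum]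
  have hG : Adm (fun x => ev u z (fun y => f (fun i => x i * y i))) :=
    adm_ev (g := fun x y => f (fun i => x i * y i)) hu (fun y hy => hf.comp_mul hy) hz
  refine le_trans (lev_mono _ j fun a => ?_) (ha _ hG)
  have hn := (good_lik h0 h1 a (n + 1)).nonneg
  have e : ∀ b, ENNReal.ofReal (tot l f (join a b) (n + 1)) = ∑ o,
      ENNReal.ofReal (tot l (fun y => f (fun i => lik l a (n + 1) o i * y i)) b (n + 1)) := by
    intro b
    rw [tot_join]
    exact ENNReal.ofReal_sum_of_nonneg fun o _ => tot_nonneg h0 h1 (hf.mul_left (hn o)) b _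
  simp only [e, lev_sum, lev_mul, Finset.mul_sum]
  rw [Finset.sum_comm]
  refine (Finset.sum_le_sum fun o _ => hb _ (hf.mul_left (hn o))).trans (le_of_eq ?_)
  exact (ENNReal.ofReal_sum_of_nonneg fun o _ => ev_nonneg (hf.mul_left (hn o)) hu hz).symm

/-- A mixture with lower bounds of the Poisson weights gives `MDom`; the rest is the certain atom. -/
theorem mdom_of_mix {t : ℝ} (ht : 0 ≤ t) (hd : 0 ≤ d) (h0 : -1 / 2 ≤ l) (h1 : l ≤ 1) {q : ℕ → ℝ}
    (hq0 : ∀ k ∈ s, 0 ≤ q k) (hq : ∀ k ∈ s, q k ≤ Real.exp (-t) * t ^ k / k.factorial)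
    (hw : ∀ a, 0 ≤ w a) (hv : ∀ a i, 0 ≤ v a i) (h : MixDom l d n s q w v) {s' : μ → ℝ}
    {y : μ → Fin 3 → ℝ}
    (hout : ∀ f, Adm f → ev w v f + (1 - ∑ k ∈ s, q k) * (3 * sym6 f (single 0)) ≤ ev s' y f) :
    MDom l d n t s' y := by
  intro f hf
  set a : ℕ → ℝ≥0∞ := fun k => lev (wgt d n) k (fun r => ENNReal.ofReal (tot l f r (n + 1)))
  have hwt := tsum_wgt hd n
  set T := ENNReal.ofReal (3 * sym6 f (single 0))
  have htop : ∀ k, a k ≤ T := fun k => by
    refine (lev_mono _ k fun r => ENNReal.ofReal_le_ofReal (tot_le_top h0 h1 hf r (n + 1))).trans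
      (le_of_eq ?_)
    have := lev_mul (wgt d n) (fun _ => 1) k T
    simp only [mul_one, lev_one _ hwt] at this
    exact this
  set Q : ℕ → ℝ≥0∞ := fun k => if k ∈ s then ENNReal.ofReal (q k) else 0
  have hQ : ∀ k, Q k ≤ pw t k := fun k => by
    simp only [Q]; split_ifs with h'
    · exact ENNReal.ofReal_le_ofReal (hq k h')
    · exact bot_le
  have hQs : ∑' k, Q k = ENNReal.ofReal (∑ k ∈ s, q k) := by
    rw [tsum_eq_sum (s := s) fun k hk => by simp [Q, hk], ENNReal.ofReal_sum_of_nonneg hq0]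
    exact Finset.sum_congr rfl fun k hk => by simp [Q, hk]
  have hrest : ∑' k, (pw t k - Q k) = ENNReal.ofReal (1 - ∑ k ∈ s, q k) := by
    have h' := ENNReal.tsum_sub (f := fun k => pw t k) (g := Q)
      (by rw [hQs]; exact ENNReal.ofReal_ne_top) hQ
    rw [h', tsum_pw ht, hQs, ← ENNReal.ofReal_one,
      ← ENNReal.ofReal_sub _ (Finset.sum_nonneg hq0)]
  calc ∑' k, pw t k * a k = ∑' k, (Q k * a k + (pw t k - Q k) * a k) :=
        tsum_congr fun k => by rw [← add_mul, add_tsub_cancel_of_le (hQ k)]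
    _ = ∑' k, Q k * a k + ∑' k, (pw t k - Q k) * a k := ENNReal.tsum_add
    _ ≤ ENNReal.ofReal (ev w v f) + ∑' k, (pw t k - Q k) * T := by
        refine add_le_add ?_ (ENNReal.tsum_le_tsum fun k => mul_le_mul_right (htop k) _)
        refine le_trans (le_of_eq ?_) (h f hf)
        rw [tsum_eq_sum (s := s) fun k hk => by simp [Q, hk]]
        exact Finset.sum_congr rfl fun k hk => by simp [Q, hk, a]
    _ ≤ ENNReal.ofReal (ev s' y f) := by
        have hsum : ∑ k ∈ s, q k ≤ 1 := by
          have h' : ENNReal.ofReal (∑ k ∈ s, q k) ≤ ENNReal.ofReal 1 := by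
            rw [← hQs, ENNReal.ofReal_one, ← tsum_pw ht]; exact ENNReal.tsum_le_tsum hQ
          exact (ENNReal.ofReal_le_ofReal_iff zero_le_one).1 h'
        rw [ENNReal.tsum_mul_right, hrest, ← ENNReal.ofReal_mul (by linarith),
          ← ENNReal.ofReal_add (ev_nonneg hf hw hv) (mul_nonneg (by linarith)
            (mul_nonneg (by norm_num) (sym6_nonneg hf (single_nonneg 0))))]
        exact ENNReal.ofReal_le_ofReal (hout f hf)

end Vale.Agent.P154.Neg
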