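import Vale.Agent.P154.Neg.Poisson

/-!
# P154: monotonicity in the edge and in the branching number

For `lh ≤ l ≤ 0` the tree channel with edge `lh` dominates the one with edge `l`; more children
dominate fewer, on regular and on Poisson trees.
-/

namespace Vale.Agent.P154.Neg

open Finset Filter Topology ENNReal

variable {l lh : ℝ} {f : (Fin 3 → ℝ) → ℝ}

lemma adm_mulSum (hf : Adm f) {B : Type} [Fintype B] {L : B → Fin 3 → ℝ}
    (hL : ∀ b i, 0 ≤ L b i) : Adm (fun x => ∑ b, f (fun i => x i * L b i)) := by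
  have h := adm_sum (g := fun b => fun x => f (fun i => x i * L b i))
    (fun b => hf.comp_mul (hL b)) (c := fun _ => (1 : ℝ)) (fun _ => zero_le_one)
  simpa using h

lemma sum_sym6 {A : Type} [Fintype A] {L : A → Fin 3 → ℝ} (hL : Good L) (g : (Fin 3 → ℝ) → ℝ) :
    ∑ o, sym6 g (L o) = ∑ o, g (L o) := by
  simp only [sym6, ← Finset.sum_div]
  rw [Finset.sum_comm]
  simp only [hL.sym g]
  simp [Fintype.card_perm, Nat.factorial]

/-- A stronger negative edge dominates on every tree. -/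
theorem tot_mono_edge (h0 : -1 / 2 ≤ lh) (hl : lh ≤ l) (h2 : l ≤ 0) :
    ∀ (t : Tree) (n : ℕ) {f : (Fin 3 → ℝ) → ℝ}, Adm f → tot l f t n ≤ tot lh f t n
  | .nil, 0, _, _ => le_rfl
  | .cons _ _, 0, _, _ => le_rfl
  | .nil, n + 1, f, _ => by rw [tot_nil, tot_nil]
  | .cons c r, n + 1, f, hf => by
    have hl0 : -1 / 2 ≤ l := h0.trans hl
    have hl1 : l ≤ 1 := h2.trans zero_le_one
    have hh1 : lh ≤ 1 := hl.trans hl1
    set G : (Fin 3 → ℝ) → ℝ := fun x => ∑ b, f (fun i => x i * lik lh r (n + 1) b i)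
    have hG : Adm G := adm_mulSum hf (good_lik h0 hh1 r (n + 1)).nonneg
    rw [tot_cons, tot_cons]
    calc ∑ a, ∑ b, f (fun i => edge l (lik l c n a) i * lik l r (n + 1) b i)
        ≤ ∑ a, G (edge l (lik l c n a)) := Finset.sum_le_sum fun a _ =>
          tot_mono_edge h0 hl h2 r (n + 1)
            (hf.mul_left (edge_nonneg_neg hl0 hl1 ((good_lik hl0 hl1 c n).nonneg a)))
      _ ≤ ∑ a, G (edge l (lik lh c n a)) := tot_mono_edge h0 hl h2 c n (hG.comp_edge hl0 hl1)
      _ = ∑ a, sym6 G (edge l (lik lh c n a)) :=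
          (sum_sym6 (good_child (good_lik h0 hh1 c n) hl0 hl1) G).symm
      _ ≤ ∑ a, sym6 G (edge lh (lik lh c n a)) := Finset.sum_le_sum fun a _ =>
          sym6_edge_mono hG h0 hl h2 ((good_lik h0 hh1 c n).nonneg a)
      _ = ∑ a, G (edge lh (lik lh c n a)) :=
          sum_sym6 (good_child (good_lik h0 hh1 c n) h0 hh1) G

/-- A stronger child dominates. -/
lemma tot_iter_mono (h0 : -1 / 2 ≤ l) (h1 : l ≤ 1) {c c' : Tree} {n : ℕ}
    (hc : ∀ {f : (Fin 3 → ℝ) → ℝ}, Adm f → tot l f c n ≤ tot l f c' n) :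
    ∀ {k k' : ℕ}, k ≤ k' → ∀ {f : (Fin 3 → ℝ) → ℝ}, Adm f →
      tot l f ((Tree.cons c)^[k] .nil) (n + 1) ≤ tot l f ((Tree.cons c')^[k'] .nil) (n + 1)
  | 0, 0, _, _, _ => le_rfl
  | 0, k' + 1, _, f, hf => by
    refine (tot_iter_mono h0 h1 hc (Nat.zero_le k') hf).trans ?_
    rw [Function.iterate_succ_apply']
    exact tot_le_cons h0 h1 hf c' _ n
  | k + 1, 0, hk, _, _ => absurd hk (by omega)
  | k + 1, k' + 1, hk, f, hf => by
    rw [Function.iterate_succ_apply', Function.iterate_succ_apply', tot_cons, tot_cons]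
    set R := (Tree.cons c')^[k'] Tree.nil
    calc ∑ a, ∑ b, f (fun i => edge l (lik l c n a) i
            * lik l ((Tree.cons c)^[k] .nil) (n + 1) b i)
        ≤ ∑ a, ∑ b, f (fun i => edge l (lik l c n a) i * lik l R (n + 1) b i) :=
          Finset.sum_le_sum fun a _ => tot_iter_mono h0 h1 hc (Nat.le_of_succ_le_succ hk)
            (hf.mul_left (edge_nonneg_neg h0 h1 ((good_lik h0 h1 c n).nonneg a)))
      _ ≤ _ := hc ((adm_mulSum hf (good_lik h0 h1 R (n + 1)).nonneg).comp_edge h0 h1)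

/-- More children dominate on regular trees. -/
theorem tot_mono_full (h0 : -1 / 2 ≤ l) (h1 : l ≤ 1) {d d' : ℕ} (hd : d ≤ d') :
    ∀ (n : ℕ) {f : (Fin 3 → ℝ) → ℝ}, Adm f →
      tot l f (fullTree d n) n ≤ tot l f (fullTree d' n) n
  | 0, _, _ => le_rfl
  | n + 1, _, hf => tot_iter_mono h0 h1 (fun hg => tot_mono_full h0 h1 hd n hg) hd hf

/-- Second moments on regular trees grow with the branching number and the negative edge. -/
theorem tX_full_mono (h0 : -1 / 2 ≤ lh) (hl : lh ≤ l) (h2 : l ≤ 0) {d d' : ℕ} (hd : d ≤ d')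
    (n : ℕ) : tX l (fullTree d n) n ≤ tX lh (fullTree d' n) n := by
  have hl0 : -1 / 2 ≤ l := h0.trans hl
  have hl1 : l ≤ 1 := h2.trans zero_le_one
  have hh1 : lh ≤ 1 := hl.trans hl1
  rw [← tot_sX hl0 hl1, ← tot_sX h0 hh1]
  exact (tot_mono_edge h0 hl h2 _ _ adm_sX).trans (tot_mono_full h0 hh1 hd n adm_sX)

/-- The mean comparison for a root with a given number of children. -/
theorem lev_tot_mono (h0 : -1 / 2 ≤ l) (h1 : l ≤ 1) {d dh : ℝ} (n : ℕ)
    (ih : ∀ {f : (Fin 3 → ℝ) → ℝ}, Adm f → Ex d n (fun t => ENNReal.ofReal (tot l f t n))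
      ≤ Ex dh n (fun t => ENNReal.ofReal (tot l f t n))) :
    ∀ (k : ℕ) {f : (Fin 3 → ℝ) → ℝ}, Adm f →
      lev (wgt d n) k (fun t => ENNReal.ofReal (tot l f t (n + 1)))
        ≤ lev (wgt dh n) k (fun t => ENNReal.ofReal (tot l f t (n + 1))) := by
  intro k
  induction k with
  | zero => intro f _; rw [lev_zero, lev_zero]
  | succ k ihk =>
    intro f hf
    have hG : ∀ r, Adm (fun x => ∑ b, f (fun i => edge l x i * lik l r (n + 1) b i)) :=
      fun r => (adm_mulSum hf (good_lik h0 h1 r (n + 1)).nonneg).comp_edge h0 h1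
    have e1 : ∀ c r, ENNReal.ofReal (tot l f (.cons c r) (n + 1)) = ∑ a, ENNReal.ofReal
        (tot l (fun y => f (fun i => edge l (lik l c n a) i * y i)) r (n + 1)) := by
      intro c r
      rw [tot_cons]
      exact ENNReal.ofReal_sum_of_nonneg fun a _ => Finset.sum_nonneg fun b _ =>
        hf.nonneg _ fun i => mul_nonneg (edge_nonneg_neg h0 h1
          ((good_lik h0 h1 c n).nonneg a) i) ((good_lik h0 h1 r (n + 1)).nonneg b i)
    have swap : ∀ w : Tree → ℝ≥0∞,
        ∑' c, w c * lev (wgt dh n) k (fun r => ENNReal.ofReal (tot l f (.cons c r) (n + 1)))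
        = ∑' r, if numKids r = k then kp (wgt dh n) r
            * (∑' c, w c * ENNReal.ofReal
                (tot l (fun x => ∑ b, f (fun i => edge l x i * lik l r (n + 1) b i)) c n))
          else 0 := by
      intro w
      simp only [lev, ← ENNReal.tsum_mul_left]
      rw [ENNReal.tsum_comm]
      refine tsum_congr fun r => ?_
      split_ifs
      · refine tsum_congr fun c => ?_
        rw [tot_cons, mul_left_comm]
        rfl
      · simp
    rw [lev_succ, lev_succ]
    calc ∑' c, wgt d n c * lev (wgt d n) k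
          (fun r => ENNReal.ofReal (tot l f (.cons c r) (n + 1)))
        ≤ ∑' c, wgt d n c * lev (wgt dh n) k
          (fun r => ENNReal.ofReal (tot l f (.cons c r) (n + 1))) :=
          ENNReal.tsum_le_tsum fun c => mul_le_mul_right (by
            simp only [e1, lev_sum]
            exact Finset.sum_le_sum fun a _ => ihk
              (hf.mul_left (edge_nonneg_neg h0 h1 ((good_lik h0 h1 c n).nonneg a)))) _
      _ ≤ _ := by
          rw [swap, swap]
          refine ENNReal.tsum_le_tsum fun r => ?_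
          split_ifs
          · exact mul_le_mul_right (ih (hG r)) _
          · exact le_rfl

/-- Averaged channels grow with the mean number of children. -/
theorem Ex_tot_mono (h0 : -1 / 2 ≤ l) (h1 : l ≤ 1) {d dh : ℝ} (hd : 0 ≤ d) (hdh : d ≤ dh) :
    ∀ (n : ℕ) {f : (Fin 3 → ℝ) → ℝ}, Adm f →
      Ex d n (fun t => ENNReal.ofReal (tot l f t n))
        ≤ Ex dh n (fun t => ENNReal.ofReal (tot l f t n)) := by
  intro n
  induction n with
  | zero =>
    intro f _
    have e : ∀ e : ℝ, wgt e 0 = wgt d 0 := fun e => by funext t; cases t <;> rfl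
    rw [Ex, Ex, e dh]
  | succ n ih =>
    have hh : 0 ≤ dh := hd.trans hdh
    have key := lev_tot_mono h0 h1 (d := d) (dh := dh) n ih
    intro f hf
    have hmono : Monotone (fun k => lev (wgt dh n) k
        (fun t => ENNReal.ofReal (tot l f t (n + 1)))) :=
      monotone_nat_of_le_succ fun k => lev_le_succ (tsum_wgt hh n) k fun c r =>
        ENNReal.ofReal_le_ofReal (tot_le_cons h0 h1 hf c r n)
    rw [Ex_succ hd, Ex_succ hh]
    refine (ENNReal.tsum_le_tsum fun k => mul_le_mul_right (key k hf) _).trans ?_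
    have := tsum_pw_mono hd (sub_nonneg.2 hdh) hmono
    rwa [add_sub_cancel] at this

/-- Averaged second moments grow with the mean and the negative edge. -/
theorem mGW_mono (h0 : -1 / 2 ≤ lh) (hl : lh ≤ l) (h2 : l ≤ 0) {d dh : ℝ} (hd : 0 ≤ d)
    (hdh : d ≤ dh) (n : ℕ) : mGW l d n ≤ mGW lh dh n := by
  have hl0 : -1 / 2 ≤ l := h0.trans hl
  have hl1 : l ≤ 1 := h2.trans zero_le_one
  have hh1 : lh ≤ 1 := hl.trans hl1
  have hh : 0 ≤ dh := hd.trans hdh
  have h := (Ex_mono (d := d) n fun t =>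
    ENNReal.ofReal_le_ofReal (tot_mono_edge h0 hl h2 t n adm_sX)).trans
      (Ex_tot_mono h0 hh1 hd hdh n adm_sX)
  simp only [tot_sX hl0 hl1, tot_sX h0 hh1] at h
  rw [Ex_ofReal hd n (fun t => (tX_mem hl0 hl1 t n).1) (summable_tX hd hl0 hl1 n n),
    Ex_ofReal hh n (fun t => (tX_mem h0 hh1 t n).1) (summable_tX hh h0 hh1 n n)] at h
  exact (ENNReal.ofReal_le_ofReal_iff (tsum_nonneg fun t =>
    mul_nonneg (gwProb_nonneg hh n t) (tX_mem h0 hh1 t n).1)).1 h

/-- A vanishing second moment at the worst parameters settles the whole box. -/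
theorem aReg_tendsto_of_box (h0 : -1 / 2 ≤ lh) (hl : lh ≤ l) (h2 : l ≤ 0) {d d' : ℕ} (hd : d ≤ d')
    (h : Tendsto (fun n => tX lh (fullTree d' n) n) atTop (𝓝 0)) :
    Tendsto (aReg l d) atTop (𝓝 0) :=
  aReg_tendsto (h0.trans hl) (h2.trans zero_le_one)
    (squeeze_zero (fun n => (tX_mem (h0.trans hl) (h2.trans zero_le_one) _ n).1)
      (fun n => tX_full_mono h0 hl h2 hd n) h)

theorem aGW_tendsto_of_box (h0 : -1 / 2 ≤ lh) (hl : lh ≤ l) (h2 : l ≤ 0) {d dh : ℝ} (hd : 0 ≤ d)
    (hdh : d ≤ dh) (h : Tendsto (mGW lh dh) atTop (𝓝 0)) : Tendsto (aGW l d) atTop (𝓝 0) :=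
  aGW_tendsto hd (h0.trans hl) (h2.trans zero_le_one)
    (squeeze_zero (fun n => tsum_nonneg fun t => mul_nonneg (gwProb_nonneg hd n t)
        (tX_mem (h0.trans hl) (h2.trans zero_le_one) t n).1)
      (fun n => mGW_mono h0 hl h2 hd hdh n) h)

end Vale.Agent.P154.Neg
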