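import Vale.Agent.P154.RegTree
import Vale.Agent.P154.Neg.Level

/-!
# P154: quantised upgrade bounds on the complete tree

`Dom` for a root with several children is built from `kids_one` and `kids_add`; each product may be
followed by an upgrade. A bound at one depth bounds all larger depths.
-/

namespace Vale.Agent.P154.Neg

open Finset Filter Topology

variable {l : ℝ} {n : ℕ} {ι κ : Type} [Fintype ι] [Fintype κ]
variable {w : ι → ℝ} {v : ι → Fin 3 → ℝ} {u : κ → ℝ} {z : κ → Fin 3 → ℝ}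

lemma kids_zero (l : ℝ) (n : ℕ) :
    Dom (lik l .nil (n + 1)) (fun _ : PUnit => (1 : ℝ)) (fun _ _ => (1 : ℝ)) :=
  fun f hf => dom_unit f hf

theorem kids_one (h0 : -1 / 2 ≤ l) (h1 : l ≤ 1) {c : Tree} (h : Dom (lik l c n) w v) :
    Dom (lik l (.cons c .nil) (n + 1)) w (fun a => edge l (v a)) := by
  intro f hf
  refine (le_of_eq (tot_single l f c n)).trans ?_
  exact h.edge h0 h1 f hf

theorem kids_join (h0 : -1 / 2 ≤ l) (h1 : l ≤ 1) {a b : Tree}
    (ha : Dom (lik l a (n + 1)) w v) (hb : Dom (lik l b (n + 1)) u z) (hu : ∀ j, 0 ≤ u j)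
    (hz : ∀ j i, 0 ≤ z j i) :
    Dom (lik l (join a b) (n + 1)) (prodW w u) (prodV v z) := by
  intro f hf
  refine (le_of_eq (tot_join l n a b f)).trans ?_
  have h := Dom.prod (good_lik h0 h1 a (n + 1)).nonneg ha hb hu hz f hf
  rwa [Fintype.sum_prod_type] at h

/-- Combining `i` and `j` equal children. -/
theorem kids_add (h0 : -1 / 2 ≤ l) (h1 : l ≤ 1) {c : Tree} {i j : ℕ}
    (ha : Dom (lik l ((Tree.cons c)^[i] .nil) (n + 1)) w v)
    (hb : Dom (lik l ((Tree.cons c)^[j] .nil) (n + 1)) u z) (hu : ∀ j, 0 ≤ u j)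
    (hz : ∀ j i, 0 ≤ z j i) :
    Dom (lik l ((Tree.cons c)^[i + j] .nil) (n + 1)) (prodW w u) (prodV v z) := by
  rw [← join_iter]
  exact kids_join h0 h1 ha hb hu hz

/-- A stronger negative edge dominates. -/
theorem upg_edge {lh : ℝ} (h0 : -1 / 2 ≤ lh) (h1 : lh ≤ l) (h2 : l ≤ 0) (hw : ∀ a, 0 ≤ w a)
    (hv : ∀ a i, 0 ≤ v a i) :
    Upg w (fun a => edge l (v a)) w (fun a => edge lh (v a)) :=
  fun _ hf => Finset.sum_le_sum fun a _ =>
    mul_le_mul_of_nonneg_left (sym6_edge_mono hf h0 h1 h2 (hv a)) (hw a)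

/-- Iterating a sound step on a fixed atom grid. -/
theorem reg_iterate (h0 : -1 / 2 ≤ l) (h1 : l ≤ 1) (d : ℕ) {W : ℕ → ι → ℝ}
    (hbase : Upg (fun _ : PUnit => (3 : ℝ)) (fun _ => single 0) (W 0) v) (N : ℕ)
    (hstep : ∀ n < N, ∀ c : Tree, Dom (lik l c n) (W n) v →
      Dom (lik l ((Tree.cons c)^[d] .nil) (n + 1)) (W (n + 1)) v) :
    ∀ n ≤ N, Dom (lik l (fullTree d n) n) (W n) v := by
  intro n hn
  induction n with
  | zero => exact (dom_top (good_lik h0 h1 _ 0)).upg hbase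
  | succ n ih => exact hstep n hn (fullTree d n) (ih (Nat.le_of_succ_le hn))

lemma tot_reg_anti (h0 : -1 / 2 ≤ l) (h1 : l ≤ 1) {f : (Fin 3 → ℝ) → ℝ} (hf : Adm f) (d n : ℕ) :
    tot l f (fullTree d (n + 1)) (n + 1) ≤ tot l f (fullTree d n) n := by
  refine (tot_anti h0 h1 hf _ n).trans (le_of_eq ?_)
  rw [← tot_cut, cut_fullTree]

/-- A bound at depth `N` holds at every larger depth. -/
theorem reg_dom_ge (h0 : -1 / 2 ≤ l) (h1 : l ≤ 1) {d N : ℕ}
    (h : Dom (lik l (fullTree d N) N) w v) {n : ℕ} (hn : N ≤ n) :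
    Dom (lik l (fullTree d n) n) w v := by
  intro f hf
  induction n, hn using Nat.le_induction with
  | base => exact h f hf
  | succ n _ ih => exact (tot_reg_anti h0 h1 hf d n).trans ih

/-- Domination at depth `N` bounds the second moment from there on. -/
theorem reg_tX_le (h0 : -1 / 2 ≤ l) (h1 : l ≤ 1) {d N : ℕ}
    (h : Dom (lik l (fullTree d N) N) w v) {n : ℕ} (hn : N ≤ n) :
    tX l (fullTree d n) n ≤ ∑ a, w a * sX (v a) :=
  chX_le_of_dom (good_lik h0 h1 _ _) (reg_dom_ge h0 h1 h hn)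

/-- The second moment controls `aReg`. -/
theorem aReg_tendsto (h0 : -1 / 2 ≤ l) (h1 : l ≤ 1) {d : ℕ}
    (h : Tendsto (fun n => tX l (fullTree d n) n) atTop (𝓝 0)) :
    Tendsto (aReg l d) atTop (𝓝 0) :=
  tv_to_zero h (fun n => aTree_nonneg h0 h1 _ n) (fun n _ hη => aTree_le h0 h1 _ n hη)

end Vale.Agent.P154.Neg
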