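import Vale.Agent.P154.GaltonWatson
import Vale.Agent.P154.Neg.Regular

/-!
# P154: quantised upgrade bounds on Poisson Galton-Watson trees, in expectation

`LDom` is domination of the averaged root channel at a depth, `KDom` the same for a root with a given
number of children. The Poisson mixture may be truncated and taken at a larger mean.
-/

namespace Vale.Agent.P154.Neg

open Finset Filter Topology ENNReal

variable {l d : ℝ} {n : ℕ} {ι κ μ : Type} [Fintype ι] [Fintype κ] [Fintype μ]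
variable {w : ι → ℝ} {v : ι → Fin 3 → ℝ} {u : κ → ℝ} {z : κ → Fin 3 → ℝ}

/-- Averaged domination at depth `n`. -/
def LDom (l d : ℝ) (n : ℕ) (w : ι → ℝ) (v : ι → Fin 3 → ℝ) : Prop :=
  ∀ f, Adm f → Ex d n (fun t => ENNReal.ofReal (tot l f t n)) ≤ ENNReal.ofReal (ev w v f)

/-- Averaged domination for a root with `k` children. -/
def KDom (l d : ℝ) (n k : ℕ) (w : ι → ℝ) (v : ι → Fin 3 → ℝ) : Prop :=
  ∀ f, Adm f →
    lev (wgt d n) k (fun t => ENNReal.ofReal (tot l f t (n + 1))) ≤ ENNReal.ofReal (ev w v f)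

lemma LDom.upg (h : LDom l d n w v) (h' : Upg w v u z) : LDom l d n u z :=
  fun f hf => (h f hf).trans (ENNReal.ofReal_le_ofReal (h' f hf))

lemma KDom.upg {k : ℕ} (h : KDom l d n k w v) (h' : Upg w v u z) : KDom l d n k u z :=
  fun f hf => (h f hf).trans (ENNReal.ofReal_le_ofReal (h' f hf))

lemma lev_mono (w : Tree → ℝ≥0∞) (k : ℕ) {F G : Tree → ℝ≥0∞} (h : ∀ t, F t ≤ G t) :
    lev w k F ≤ lev w k G :=
  ENNReal.tsum_le_tsum fun t => by split_ifs <;> simp [mul_le_mul_right, h t]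

lemma lev_sum {A : Type} (w : Tree → ℝ≥0∞) (k : ℕ) (s : Finset A) (F : A → Tree → ℝ≥0∞) :
    lev w k (fun t => ∑ a ∈ s, F a t) = ∑ a ∈ s, lev w k (F a) := by
  classical
  induction s using Finset.induction with
  | empty => simp [lev]
  | insert a s ha ih => simp only [Finset.sum_insert ha, lev_add, ih]

lemma lev_join (w : Tree → ℝ≥0∞) : ∀ (i j : ℕ) (F : Tree → ℝ≥0∞),
    lev w (i + j) F = lev w i (fun a => lev w j (fun b => F (join a b)))
  | 0, j, F => by simp [lev_zero, join]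
  | i + 1, j, F => by
    rw [Nat.add_right_comm, lev_succ, lev_succ]
    refine tsum_congr fun c => ?_
    rw [lev_join w i j]
    rfl

lemma lev_le_succ {w : Tree → ℝ≥0∞} (hw : ∑' t, w t = 1) (k : ℕ) {F : Tree → ℝ≥0∞}
    (h : ∀ c r, F r ≤ F (.cons c r)) : lev w k F ≤ lev w (k + 1) F := by
  rw [lev_succ]
  calc lev w k F = ∑' c, w c * lev w k F := by rw [ENNReal.tsum_mul_right, hw, one_mul]
    _ ≤ _ := ENNReal.tsum_le_tsum fun c => mul_le_mul_right (lev_mono w k fun r => h c r) _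

theorem kdom_one (h0 : -1 / 2 ≤ l) (h1 : l ≤ 1) (h : LDom l d n w v) :
    KDom l d n 1 w (fun a => edge l (v a)) := by
  intro f hf
  rw [show (1 : ℕ) = 0 + 1 from rfl, lev_succ]
  simp only [lev_zero, tot_single]
  refine (h _ (hf.comp_edge h0 h1)).trans (le_of_eq ?_)
  simp only [ev, sym6_edge]

theorem kdom_zero : KDom l d n 0 (fun _ : PUnit => (1 : ℝ)) (fun _ _ => (1 : ℝ)) := by
  intro f hf
  rw [lev_zero, tot_nil]
  refine ENNReal.ofReal_le_ofReal ?_
  simpa using dom_unit f hf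

/-- Independent groups of children combine. -/
theorem kdom_add (h0 : -1 / 2 ≤ l) (h1 : l ≤ 1) {i j : ℕ} (ha : KDom l d n i w v)
    (hb : KDom l d n j u z) (hu : ∀ b, 0 ≤ u b) (hz : ∀ b i, 0 ≤ z b i) :
    KDom l d n (i + j) (prodW w u) (prodV v z) := by
  intro f hf
  rw [lev_join, ← ev_prodW]
  have hG : Adm (fun x => ev u z (fun y => f (fun i => x i * y i))) :=
    adm_ev (g := fun x y => f (fun i => x i * y i)) hu (fun y hy => hf.comp_mul hy) hz
  refine le_trans (lev_mono _ i fun a => ?_) (ha _ hG)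
  have hn := (good_lik h0 h1 a (n + 1)).nonneg
  have e : ∀ b, ENNReal.ofReal (tot l f (join a b) (n + 1)) = ∑ o,
      ENNReal.ofReal (tot l (fun y => f (fun i => lik l a (n + 1) o i * y i)) b (n + 1)) := by
    intro b
    rw [tot_join]
    exact ENNReal.ofReal_sum_of_nonneg fun o _ => tot_nonneg h0 h1 (hf.mul_left (hn o)) b _
  simp only [e, lev_sum]
  refine (Finset.sum_le_sum fun o _ => hb _ (hf.mul_left (hn o))).trans (le_of_eq ?_)
  exact (ENNReal.ofReal_sum_of_nonneg fun o _ => ev_nonneg (hf.mul_left (hn o)) hu hz).symm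

lemma ldom_top (hd : 0 ≤ d) (h0 : -1 / 2 ≤ l) (h1 : l ≤ 1) (n : ℕ) :
    LDom l d n (fun _ : PUnit => (3 : ℝ)) (fun _ => single 0) := by
  intro f hf
  refine (Ex_mono n fun t => ENNReal.ofReal_le_ofReal (tot_le_top h0 h1 hf t n)).trans (le_of_eq ?_)
  simp [Ex, ENNReal.tsum_mul_right, tsum_wgt hd n, ev]

lemma tsum_pw_mono {d e : ℝ} (hd : 0 ≤ d) (he : 0 ≤ e) {a : ℕ → ℝ≥0∞} (ha : Monotone a) :
    ∑' k, pw d k * a k ≤ ∑' k, pw (d + e) k * a k := by
  have key : ∀ m, ∑ q ∈ Finset.HasAntidiagonal.antidiagonal m, pw d q.1 * pw e q.2 = pw (d + e) m := by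
    intro m
    rw [show pw (d + e) m = ENNReal.ofReal (Real.exp (-(d + e)) * (d + e) ^ m / m.factorial)
      from rfl, (Commute.all d e).add_pow' m, Finset.mul_sum, Finset.sum_div,
      ENNReal.ofReal_sum_of_nonneg (fun q _ => by positivity)]
    refine Finset.sum_congr rfl fun q hq => ?_
    rw [pw, pw, ← ENNReal.ofReal_mul (by positivity)]
    congr 1
    have hm : q.1 + q.2 = m := Finset.HasAntidiagonal.mem_antidiagonal.1 hq
    subst hm
    rw [nsmul_eq_mul, Nat.cast_add_choose, neg_add, Real.exp_add]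
    field_simp
  calc ∑' k, pw d k * a k = ∑' i, ∑' j, (pw d i * a i) * pw e j :=
        tsum_congr fun i => by rw [ENNReal.tsum_mul_left, tsum_pw he, mul_one]
    _ ≤ ∑' i, ∑' j, pw d i * pw e j * a (i + j) := ENNReal.tsum_le_tsum fun i =>
        ENNReal.tsum_le_tsum fun j => by
          rw [mul_right_comm]; exact mul_le_mul_right (ha (Nat.le_add_right i j)) _
    _ = ∑' q : ℕ × ℕ, pw d q.1 * pw e q.2 * a (q.1 + q.2) :=
        (ENNReal.tsum_prod' (f := fun q : ℕ × ℕ => pw d q.1 * pw e q.2 * a (q.1 + q.2))).symm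
    _ = ∑' m, ∑ q ∈ Finset.HasAntidiagonal.antidiagonal m, pw d q.1 * pw e q.2 * a (q.1 + q.2) := by
        rw [← (Finset.HasAntidiagonal.sigmaAntidiagonalEquivProd).tsum_eq, ENNReal.tsum_sigma']
        refine tsum_congr fun m => ?_
        rw [tsum_fintype]
        exact Finset.sum_coe_sort (Finset.HasAntidiagonal.antidiagonal m)
          (fun q : ℕ × ℕ => pw d q.1 * pw e q.2 * a (q.1 + q.2))
    _ = ∑' m, pw (d + e) m * a m := tsum_congr fun m => by
        rw [← key m, Finset.sum_mul]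
        exact Finset.sum_congr rfl fun q hq => by rw [Finset.HasAntidiagonal.mem_antidiagonal.1 hq]

/-- The Poisson mixture: truncate at any finite set, underestimate the weights at a larger mean
`dh`; the missing mass goes to the certain atom. -/
theorem ldom_succ {dh : ℝ} (hd : 0 ≤ d) (hdh : d ≤ dh) (h0 : -1 / 2 ≤ l) (h1 : l ≤ 1)
    (s : Finset ℕ) (q : ℕ → ℝ) (hq0 : ∀ k ∈ s, 0 ≤ q k)
    (hq : ∀ k ∈ s, q k ≤ Real.exp (-dh) * dh ^ k / k.factorial)
    {W : ℕ → ι → ℝ} (hW : ∀ k ∈ s, ∀ a, 0 ≤ W k a) (hv : ∀ a i, 0 ≤ v a i)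
    (hk : ∀ k ∈ s, KDom l d n k (W k) v) {s' : μ → ℝ} {y : μ → Fin 3 → ℝ}
    (hout : ∀ f, Adm f → ∑ k ∈ s, q k * ev (W k) v f + (1 - ∑ k ∈ s, q k) * (3 * sym6 f (single 0))
      ≤ ev s' y f) :
    LDom l d (n + 1) s' y := by
  intro f hf
  set a : ℕ → ℝ≥0∞ := fun k => lev (wgt d n) k (fun t => ENNReal.ofReal (tot l f t (n + 1)))
  have hw := tsum_wgt hd n
  have hmono : Monotone a := monotone_nat_of_le_succ fun k =>
    lev_le_succ hw k fun c r => ENNReal.ofReal_le_ofReal (tot_le_cons h0 h1 hf c r n)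
  have htop : ∀ k, a k ≤ ENNReal.ofReal (3 * sym6 f (single 0)) := fun k => by
    refine (lev_mono _ k fun t => ENNReal.ofReal_le_ofReal (tot_le_top h0 h1 hf t (n + 1))).trans
      (le_of_eq ?_)
    have := lev_mul (wgt d n) (fun _ => 1) k (ENNReal.ofReal (3 * sym6 f (single 0)))
    simpa [lev_one _ hw] using this
  have hdh0 : 0 ≤ dh := hd.trans hdh
  set T := ENNReal.ofReal (3 * sym6 f (single 0))
  rw [Ex_succ hd]
  refine (tsum_pw_mono hd (sub_nonneg.2 hdh) hmono).trans ?_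
  rw [add_sub_cancel]
  set Q : ℕ → ℝ≥0∞ := fun k => if k ∈ s then ENNReal.ofReal (q k) else 0
  have hQ : ∀ k, Q k ≤ pw dh k := fun k => by
    simp only [Q]; split_ifs with h
    · exact ENNReal.ofReal_le_ofReal (hq k h)
    · exact bot_le
  have hQs : ∑' k, Q k = ENNReal.ofReal (∑ k ∈ s, q k) := by
    rw [tsum_eq_sum (s := s) fun k hk => by simp [Q, hk], ENNReal.ofReal_sum_of_nonneg hq0]
    exact Finset.sum_congr rfl fun k hk => by simp [Q, hk]
  have hrest : ∑' k, (pw dh k - Q k) = ENNReal.ofReal (1 - ∑ k ∈ s, q k) := by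
    have h := ENNReal.tsum_sub (f := fun k => pw dh k) (g := Q)
      (by rw [hQs]; exact ENNReal.ofReal_ne_top) hQ
    rw [h, tsum_pw hdh0, hQs, ← ENNReal.ofReal_one, ← ENNReal.ofReal_sub _ (Finset.sum_nonneg hq0)]
  calc ∑' k, pw dh k * a k = ∑' k, (Q k * a k + (pw dh k - Q k) * a k) :=
        tsum_congr fun k => by rw [← add_mul, add_tsub_cancel_of_le (hQ k)]
    _ = ∑' k, Q k * a k + ∑' k, (pw dh k - Q k) * a k := ENNReal.tsum_add
    _ ≤ ∑ k ∈ s, ENNReal.ofReal (q k * ev (W k) v f) + ∑' k, (pw dh k - Q k) * T := by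
        refine add_le_add ?_ (ENNReal.tsum_le_tsum fun k => mul_le_mul_right (htop k) _)
        rw [tsum_eq_sum (s := s) fun k hk => by simp [Q, hk]]
        refine Finset.sum_le_sum fun k hk' => ?_
        simp only [Q, if_pos hk']
        rw [ENNReal.ofReal_mul (hq0 k hk')]
        exact mul_le_mul_right (hk k hk' f hf) _
    _ ≤ ENNReal.ofReal (ev s' y f) := by
        have hsum : ∑ k ∈ s, q k ≤ 1 := by
          have h1 : ENNReal.ofReal (∑ k ∈ s, q k) ≤ ENNReal.ofReal 1 := by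
            rw [← hQs, ENNReal.ofReal_one, ← tsum_pw hdh0]; exact ENNReal.tsum_le_tsum hQ
          exact (ENNReal.ofReal_le_ofReal_iff zero_le_one).1 h1
        have hn : ∀ k ∈ s, 0 ≤ q k * ev (W k) v f := fun k hk =>
          mul_nonneg (hq0 k hk) (ev_nonneg hf (hW k hk) hv)
        rw [ENNReal.tsum_mul_right, hrest, ← ENNReal.ofReal_sum_of_nonneg hn,
          ← ENNReal.ofReal_mul (by linarith), ← ENNReal.ofReal_add (Finset.sum_nonneg hn)
            (mul_nonneg (by linarith) (mul_nonneg (by norm_num)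
              (sym6_nonneg hf (single_nonneg 0))))]
        exact ENNReal.ofReal_le_ofReal (hout f hf)

lemma Ex_cut (hd : 0 ≤ d) : ∀ (n : ℕ) (F : Tree → ℝ≥0∞),
    Ex d (n + 1) (fun t => F (cut n t)) = Ex d n F
  | 0, F => by
    have e : Ex d 0 F = F .nil := by
      rw [Ex, tsum_tree]; simp [wgt, gwProb]
    rw [e]
    simp only [cut, Ex, ENNReal.tsum_mul_right, tsum_wgt hd 1, one_mul]
  | n + 1, F => by
    rw [Ex_succ hd, Ex_succ hd]
    refine tsum_congr fun k => ?_
    congr 1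
    induction k generalizing F with
    | zero => rw [lev_zero, lev_zero]; rfl
    | succ k ih =>
      rw [lev_succ, lev_succ]
      simp only [cut]
      rw [tsum_congr fun c => by rw [ih (fun r => F (.cons (cut n c) r))]]
      exact Ex_cut hd n (fun c => lev (wgt d n) k fun r => F (.cons c r))

theorem ldom_ge (hd : 0 ≤ d) (h0 : -1 / 2 ≤ l) (h1 : l ≤ 1) {N : ℕ} (h : LDom l d N w v)
    {n : ℕ} (hn : N ≤ n) : LDom l d n w v := by
  intro f hf
  induction n, hn using Nat.le_induction with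
  | base => exact h f hf
  | succ n _ ih =>
    refine le_trans ?_ ih
    rw [← Ex_cut hd n]
    refine Ex_mono _ fun t => ENNReal.ofReal_le_ofReal ?_
    rw [tot_cut]
    exact tot_anti h0 h1 hf t n

lemma summable_tX (hd : 0 ≤ d) (h0 : -1 / 2 ≤ l) (h1 : l ≤ 1) (m n : ℕ) :
    Summable (fun t => gwProb d n t * tX l t m) :=
  summable_bdd hd n (fun t => (tX_mem h0 h1 t m).1) (fun t => (tX_mem h0 h1 t m).2)

/-- Averaged domination at depth `N` bounds the averaged second moment from there on. -/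
theorem gw_mGW_le (hd : 0 ≤ d) (h0 : -1 / 2 ≤ l) (h1 : l ≤ 1) {N : ℕ} (h : LDom l d N w v)
    (hw : ∀ a, 0 ≤ w a) (hv : ∀ a i, 0 ≤ v a i) {n : ℕ} (hn : N ≤ n) :
    mGW l d n ≤ ∑ a, w a * sX (v a) := by
  have h' := ldom_ge hd h0 h1 h hn sX adm_sX
  rw [Ex_ofReal hd n (fun t => tot_nonneg h0 h1 adm_sX t n)
    (by simpa only [tot_sX h0 h1] using summable_tX hd h0 h1 n n)] at h'
  have h'' := (ENNReal.ofReal_le_ofReal_iff (ev_nonneg adm_sX hw hv)).1 h'
  simpa [ev, sym6_sX, tot_sX h0 h1, mGW] using h''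

/-- The averaged second moment controls `aGW`. -/
theorem aGW_tendsto (hd : 0 ≤ d) (h0 : -1 / 2 ≤ l) (h1 : l ≤ 1)
    (h : Tendsto (mGW l d) atTop (𝓝 0)) : Tendsto (aGW l d) atTop (𝓝 0) := by
  refine tv_to_zero h
    (fun n => tsum_nonneg fun t => mul_nonneg (gwProb_nonneg hd n t) (aTree_nonneg h0 h1 t n))
    (fun n η hη => ?_)
  have hX := summable_tX hd h0 h1 n n
  have hs := summable_bdd hd n (fun t => aTree_nonneg h0 h1 t n) (B := 2) fun t => by
    have := aTree_le h0 h1 t n one_pos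
    have := (tX_mem h0 h1 t n).2
    linarith
  have h2 : aGW l d n ≤ ∑' t, ((3 / 2 * η) * gwProb d n t
      + (gwProb d n t * tX l t n) / (12 * η)) :=
    Summable.tsum_le_tsum (fun t => by
      refine (mul_le_mul_of_nonneg_left (aTree_le h0 h1 t n hη) (gwProb_nonneg hd n t)).trans
        (le_of_eq ?_)
      ring) hs (((summable_gw hd n).mul_left _).add (hX.div_const _))
  rw [Summable.tsum_add ((summable_gw hd n).mul_left _) (hX.div_const _), tsum_mul_left,
    gw_total hd, tsum_div_const, mul_one] at h2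
  exact h2

/-- Iterating a sound step on a fixed atom grid. -/
theorem gw_iterate (hd : 0 ≤ d) (h0 : -1 / 2 ≤ l) (h1 : l ≤ 1) {W : ℕ → ι → ℝ}
    (hbase : Upg (fun _ : PUnit => (3 : ℝ)) (fun _ => single 0) (W 0) v) (N : ℕ)
    (hstep : ∀ n < N, LDom l d n (W n) v → LDom l d (n + 1) (W (n + 1)) v) :
    ∀ n ≤ N, LDom l d n (W n) v := by
  intro n hn
  induction n with
  | zero => exact (ldom_top hd h0 h1 0).upg hbase
  | succ n ih => exact hstep n hn (ih (Nat.le_of_succ_le hn))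

end Vale.Agent.P154.Neg
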